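import Mathlib

/-!
Definitions for the P142 hand-in.
-/

namespace Vale.Agent.P142

open Metric

noncomputable section

/-- The Schwarzian derivative `f'''/f' - (3/2)(f''/f')²`. -/
def schwarz (f : ℂ → ℂ) (z : ℂ) : ℂ :=
  deriv (deriv (deriv f)) z / deriv f z - 3 / 2 * (deriv (deriv f) z / deriv f z) ^ 2

/-- Bazilevič functions of type `(α, β)`: `f` is univalent on the disc with `f z = z e^{φ z}`, there
is a starlike `g z = z e^{ψ z}` and a holomorphic `h` with positive real part such that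
`f' = g^α h z^{iβ-1} f^{1-a}`, `a = α + iβ`, written without branches as
`f' e^{(a-1)φ} = e^{αψ} h`. -/
def IsBazilevic (α β : ℝ) (f : ℂ → ℂ) : Prop :=
  DifferentiableOn ℂ f (ball 0 1) ∧ Set.InjOn f (ball 0 1) ∧ ∃ φ ψ h : ℂ → ℂ,
    DifferentiableOn ℂ φ (ball 0 1) ∧ DifferentiableOn ℂ ψ (ball 0 1) ∧
    DifferentiableOn ℂ h (ball 0 1) ∧ ∀ z ∈ ball (0 : ℂ) 1,
      f z = z * Complex.exp (φ z) ∧ 0 < (1 + z * deriv ψ z).re ∧ 0 < (h z).re ∧
        deriv f z * Complex.exp (((α : ℂ) + β * Complex.I - 1) * φ z) =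
          Complex.exp (α * ψ z) * h z

end

end Vale.Agent.P142
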