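import Vale.Agent.P142.Disk
import Vale.Agent.P142.Defs

/-!
Brennan's bound for Bazilevič functions (P142).

Along a radius the function `ρ^a e^{aφ}` has derivative `a ρ^{a-1} e^{αψ} h`, and `ρ^α |e^{αψ}|` is
increasing, so `|f'| ≥ c |h| / (1 + log(1/(1-r)))`; finally `|p|² (1-r) ≤ C Re p` for `p = 1/h`.
-/

namespace Vale.Agent.P142

open Metric Filter Topology Real MeasureTheory Set

noncomputable section

/-- holomorphic functions with positive real part -/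
theorem posRe_sq_bound {p : ℂ → ℂ} (hp : DifferentiableOn ℂ p (ball 0 1))
    (hre : ∀ z ∈ ball (0 : ℂ) 1, 0 < (p z).re) :
    ∃ K, 0 < K ∧ ∀ z ∈ ball (0 : ℂ) 1, ‖p z‖ ^ 2 * (1 - ‖z‖) ≤ K * (p z).re := by
  have hx0 := hre 0 (mem_ball_self one_pos)
  set p0 := p 0 with hp0
  have hsq : ∀ z, ‖p z + (starRingEnd ℂ) p0‖ ^ 2 - ‖p z - p0‖ ^ 2 = 4 * (p z).re * p0.re := by
    intro z
    simp [← Complex.normSq_eq_norm_sq, Complex.normSq_apply]
    ring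
  have hden : ∀ z ∈ ball (0 : ℂ) 1, 0 < ‖p z + (starRingEnd ℂ) p0‖ ∧
      p0.re ≤ ‖p z + (starRingEnd ℂ) p0‖ := fun z hz => by
    have h1 : p0.re ≤ ‖p z + (starRingEnd ℂ) p0‖ := by
      refine le_trans ?_ (Complex.re_le_norm _)
      simp
      linarith [hre z hz]
    exact ⟨hx0.trans_le h1, h1⟩
  set w : ℂ → ℂ := fun z => (p z - p0) / (p z + (starRingEnd ℂ) p0) with hw
  have hwd : DifferentiableOn ℂ w (ball 0 1) :=
    (hp.sub_const p0).div (hp.add_const _) fun z hz => norm_pos_iff.1 (hden z hz).1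
  have hle : ∀ z ∈ ball (0 : ℂ) 1, ‖p z - p0‖ ≤ ‖p z + (starRingEnd ℂ) p0‖ := fun z hz =>
    pow_le_pow_iff_left₀ (norm_nonneg _) (norm_nonneg _) two_ne_zero |>.1 (by
      nlinarith [hsq z, mul_pos (hre z hz) hx0])
  have hmaps : MapsTo w (ball 0 1) (closedBall 0 1) := fun z hz => by
    rw [mem_closedBall_zero_iff, hw, norm_div, div_le_one (hden z hz).1]
    exact hle z hz
  refine ⟨(2 + 2 * (‖p0‖ / p0.re) ^ 2) * (4 * p0.re) + 1, by positivity, fun z hz => ?_⟩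
  have hz1 : ‖z‖ < 1 := mem_ball_zero_iff.1 hz
  have hs := Complex.norm_le_norm_of_mapsTo_ball hwd hmaps (by simp [hw, hp0]) hz1
  rw [hw, norm_div, div_le_iff₀ (hden z hz).1] at hs
  have hs2 := pow_le_pow_left₀ (norm_nonneg _) hs 2
  set A := ‖p z + (starRingEnd ℂ) p0‖
  have key : (1 - ‖z‖) * A ^ 2 ≤ 4 * (p z).re * p0.re := by
    have hz2 : ‖z‖ ^ 2 ≤ ‖z‖ := by nlinarith [norm_nonneg z]
    nlinarith [hsq z, mul_le_mul_of_nonneg_right hz2 (sq_nonneg A)]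
  have hp0A : ‖p0‖ ≤ ‖p0‖ / p0.re * A := by
    rw [div_mul_eq_mul_div, le_div_iff₀ hx0]
    exact mul_le_mul_of_nonneg_left (hden z hz).2 (norm_nonneg _)
  have hpz : ‖p z‖ ≤ A + ‖p0‖ := by
    simpa using norm_sub_le (p z + (starRingEnd ℂ) p0) ((starRingEnd ℂ) p0)
  have hb : ‖p z‖ ^ 2 ≤ (2 + 2 * (‖p0‖ / p0.re) ^ 2) * A ^ 2 := by
    have h1 := pow_le_pow_left₀ (norm_nonneg _) hpz 2
    have h2 := pow_le_pow_left₀ (norm_nonneg _) hp0A 2
    nlinarith [sq_nonneg (A - ‖p0‖)]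
  calc ‖p z‖ ^ 2 * (1 - ‖z‖) ≤ (2 + 2 * (‖p0‖ / p0.re) ^ 2) * A ^ 2 * (1 - ‖z‖) :=
        mul_le_mul_of_nonneg_right hb (by linarith)
    _ ≤ (2 + 2 * (‖p0‖ / p0.re) ^ 2) * (4 * (p z).re * p0.re) := by
        rw [mul_assoc]
        exact mul_le_mul_of_nonneg_left (by linarith) (by positivity)
    _ ≤ _ := by nlinarith [hre z hz]

theorem posRe_bound {p : ℂ → ℂ} {K : ℝ} (hK : 0 < K)
    (h : ∀ z ∈ ball (0 : ℂ) 1, ‖p z‖ ^ 2 * (1 - ‖z‖) ≤ K * (p z).re) {z : ℂ}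
    (hz : z ∈ ball (0 : ℂ) 1) : ‖p z‖ * (1 - ‖z‖) ≤ K := by
  rcases eq_or_lt_of_le (norm_nonneg (p z)) with h0 | h0
  · rw [← h0, zero_mul]; exact hK.le
  · have := (h z hz).trans (mul_le_mul_of_nonneg_left (Complex.re_le_norm (p z)) hK.le)
    nlinarith

theorem radial_hasDerivAt {φ : ℂ → ℂ} (hφ : DifferentiableOn ℂ φ (ball 0 1)) {ζ : ℂ} {ρ : ℝ}
    (hρ : ‖(ρ : ℂ) * ζ‖ < 1) :
    HasDerivAt (fun s : ℝ => φ ((s : ℂ) * ζ)) (deriv φ ((ρ : ℂ) * ζ) * ζ) ρ :=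
  ((hφ.differentiableAt (isOpen_ball.mem_nhds (mem_ball_zero_iff.2 hρ))).hasDerivAt.comp
    (ρ : ℂ) (hasDerivAt_mul_const ζ)).comp_ofReal

theorem norm_rad {ζ : ℂ} (hζ : ‖ζ‖ = 1) {ρ : ℝ} (h0 : 0 ≤ ρ) : ‖(ρ : ℂ) * ζ‖ = ρ := by
  simp [hζ, abs_of_nonneg h0]

/-- the monotone quantity -/
def radG (α : ℝ) (ψ : ℂ → ℂ) (ζ : ℂ) (ρ : ℝ) : ℝ :=
  Real.exp (α * (Real.log ρ + (ψ ((ρ : ℂ) * ζ)).re))

theorem radG_mono {α : ℝ} (hα : 0 < α) {ψ : ℂ → ℂ} (hψ : DifferentiableOn ℂ ψ (ball 0 1))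
    (hstar : ∀ z ∈ ball (0 : ℂ) 1, 0 < (1 + z * deriv ψ z).re) {ζ : ℂ} (hζ : ‖ζ‖ = 1) :
    MonotoneOn (radG α ψ ζ) (Ioo 0 1) := by
  have hd : ∀ ρ ∈ Ioo (0 : ℝ) 1, HasDerivAt
      (fun s : ℝ => Real.log s + (ψ ((s : ℂ) * ζ)).re)
      (ρ⁻¹ + (deriv ψ ((ρ : ℂ) * ζ) * ζ).re) ρ := fun ρ hρ =>
    (Real.hasDerivAt_log hρ.1.ne').add (Complex.reCLM.hasFDerivAt.comp_hasDerivAt ρ
      (radial_hasDerivAt hψ (by rw [norm_rad hζ hρ.1.le]; exact hρ.2)))
  have hm : MonotoneOn (fun s : ℝ => Real.log s + (ψ ((s : ℂ) * ζ)).re) (Ioo 0 1) := by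
    refine monotoneOn_of_deriv_nonneg (convex_Ioo 0 1)
      (fun ρ hρ => (hd ρ hρ).continuousAt.continuousWithinAt)
      (fun ρ hρ => (hd ρ (interior_subset hρ)).differentiableAt.differentiableWithinAt)
      fun ρ hρ => ?_
    have hρ' := interior_subset hρ
    rw [(hd ρ hρ').deriv]
    have h := hstar _ (mem_ball_zero_iff.2 (by rw [norm_rad hζ hρ'.1.le]; exact hρ'.2) :
      (ρ : ℂ) * ζ ∈ ball (0 : ℂ) 1)
    have e : (1 + (ρ : ℂ) * ζ * deriv ψ ((ρ : ℂ) * ζ)).re =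
        ρ * (ρ⁻¹ + (deriv ψ ((ρ : ℂ) * ζ) * ζ).re) := by
      rw [mul_add, mul_inv_cancel₀ hρ'.1.ne', mul_assoc, mul_comm ζ, Complex.add_re,
        Complex.one_re, Complex.re_ofReal_mul]
    rw [e] at h
    exact le_of_lt ((pos_iff_pos_of_mul_pos h).1 hρ'.1)
  intro a ha b hb hab
  exact Real.exp_le_exp.2 (mul_le_mul_of_nonneg_left (hm ha hb hab) hα.le)

/-- the key radial estimate -/
theorem radial_main {α β : ℝ} (hα : 0 < α) {f φ ψ h : ℂ → ℂ}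
    (hφ : DifferentiableOn ℂ φ (ball 0 1)) (hψ : DifferentiableOn ℂ ψ (ball 0 1))
    (hstr : ∀ z ∈ ball (0 : ℂ) 1, f z = z * Complex.exp (φ z) ∧ 0 < (1 + z * deriv ψ z).re ∧
      deriv f z * Complex.exp (((α : ℂ) + β * Complex.I - 1) * φ z) =
        Complex.exp (α * ψ z) * h z)
    {H M c : ℝ} (hc : 0 < c) (hM0 : 0 ≤ M)
    (hH : ∀ z ∈ ball (0 : ℂ) 1, ‖h z‖ * (1 - ‖z‖) ≤ H)
    (hM : ∀ z : ℂ, ‖z‖ = 1 / 2 → ‖Complex.exp (((α : ℂ) + β * Complex.I) * φ z)‖ ≤ M)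
    (hc' : ∀ z : ℂ, ‖z‖ = 1 / 2 → c ≤ (1 / 2 : ℝ) ^ α * ‖Complex.exp (α * ψ z)‖)
    {ζ : ℂ} (hζ : ‖ζ‖ = 1) {r : ℝ} (hr : r ∈ Ico (1 / 2 : ℝ) 1) :
    ‖Complex.exp (((α : ℂ) + β * Complex.I) * φ ((r : ℂ) * ζ))‖ ≤
      (M / c + 2 * ‖(α : ℂ) + β * Complex.I‖ * H) * (1 - Real.log (1 - r)) *
        ‖Complex.exp (α * ψ ((r : ℂ) * ζ))‖ := by
  set a : ℂ := (α : ℂ) + β * Complex.I with ha
  have hare : a.re = α := by simp [ha]
  set Φ : ℝ → ℂ := fun s => Complex.exp (a * ((Real.log s : ℝ) + φ ((s : ℂ) * ζ))) with hΦ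
  have hr0 : 0 < r := by linarith [hr.1]
  have hG0 : 0 < radG α ψ ζ r := Real.exp_pos _
  set G := radG α ψ ζ r with hG
  have hmem : ∀ s ∈ Icc (1 / 2 : ℝ) r, s ∈ Ioo (0 : ℝ) 1 := fun s hs =>
    ⟨by linarith [hs.1], hs.2.trans_lt hr.2⟩
  have hb : ∀ s ∈ Icc (1 / 2 : ℝ) r, (s : ℂ) * ζ ∈ ball (0 : ℂ) 1 := fun s hs => by
    rw [mem_ball_zero_iff, norm_rad hζ (hmem s hs).1.le]; exact (hmem s hs).2
  have hnΦ : ∀ s : ℝ, 0 < s → ‖Φ s‖ = s ^ α * ‖Complex.exp (a * φ ((s : ℂ) * ζ))‖ := by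
    intro s hs
    rw [hΦ]
    show ‖Complex.exp (a * (_ + _))‖ = _
    rw [mul_add, Complex.exp_add, norm_mul, Complex.norm_exp, Real.rpow_def_of_pos hs]
    congr 2
    simp [Complex.mul_re, hare, mul_comm]
  have hnG : ∀ s : ℝ, 0 < s →
      radG α ψ ζ s = s ^ α * ‖Complex.exp (α * ψ ((s : ℂ) * ζ))‖ := by
    intro s hs
    rw [radG, Complex.norm_exp, Real.rpow_def_of_pos hs, ← Real.exp_add]
    congr 1
    simp
    ring
  have hdΦ : ∀ s ∈ Icc (1 / 2 : ℝ) r, HasDerivAt Φ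
      (Φ s * (a * ((s⁻¹ : ℝ) + deriv φ ((s : ℂ) * ζ) * ζ))) s := fun s hs =>
    ((((Real.hasDerivAt_log (hmem s hs).1.ne').ofReal_comp).add
      (radial_hasDerivAt hφ (mem_ball_zero_iff.1 (hb s hs)))).const_mul a).cexp
  have hbound : ∀ s ∈ Icc (1 / 2 : ℝ) r,
      ‖Φ s * (a * ((s⁻¹ : ℝ) + deriv φ ((s : ℂ) * ζ) * ζ))‖ ≤
        2 * ‖a‖ * G * H / (1 - s) := by
    intro s hs
    obtain ⟨hs0, hs1⟩ := hmem s hs
    set z := (s : ℂ) * ζ with hz
    have hzb := hb s hs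
    obtain ⟨hfz, -, hrel⟩ := hstr z hzb
    have hdf : deriv f z = Complex.exp (φ z) * (1 + z * deriv φ z) := by
      have h1 : HasDerivAt (fun u => u * Complex.exp (φ u))
          (1 * Complex.exp (φ z) + z * (Complex.exp (φ z) * deriv φ z)) z :=
        (hasDerivAt_id z).mul
          (hφ.differentiableAt (isOpen_ball.mem_nhds hzb)).hasDerivAt.cexp
      have e : deriv f z = deriv (fun u => u * Complex.exp (φ u)) z :=
        (Filter.eventuallyEq_of_mem (isOpen_ball.mem_nhds hzb)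
          fun u hu => (hstr u hu).1).deriv_eq
      rw [e, h1.deriv]
      ring
    have hs' : (s : ℂ) ≠ 0 := by exact_mod_cast hs0.ne'
    have key : Φ s * (a * ((s⁻¹ : ℝ) + deriv φ z * ζ)) =
        a / s * (Complex.exp (a * (Real.log s : ℝ)) * (Complex.exp (α * ψ z) * h z)) := by
      rw [← hrel, hdf, hΦ]
      show Complex.exp (a * ((Real.log s : ℝ) + φ z)) * _ = _
      rw [mul_add a, Complex.exp_add, show (a - 1) * φ z = a * φ z - φ z by ring,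
        Complex.exp_sub, hz]
      have := Complex.exp_ne_zero (φ z)
      push_cast
      field_simp
    rw [key]
    have hn : ‖Complex.exp (a * (Real.log s : ℝ))‖ = s ^ α := by
      rw [Complex.norm_exp, Real.rpow_def_of_pos hs0]
      simp [Complex.mul_re, hare, mul_comm]
    have hg : radG α ψ ζ s ≤ G :=
      radG_mono hα hψ (fun u hu => (hstr u hu).2.1) hζ ⟨hs0, hs1⟩ ⟨hr0, hr.2⟩ hs.2
    have hh : ‖h z‖ ≤ H / (1 - s) := by
      rw [le_div_iff₀ (by linarith)]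
      have h9 := hH z hzb
      rwa [hz, norm_rad hζ hs0.le] at h9
    have hnn : 0 ≤ radG α ψ ζ s := (Real.exp_pos _).le
    calc ‖a / s * (Complex.exp (a * (Real.log s : ℝ)) * (Complex.exp (α * ψ z) * h z))‖
        = ‖a‖ / s * (radG α ψ ζ s * ‖h z‖) := by
          rw [norm_mul, norm_mul, norm_mul, norm_div, hn, hnG s hs0, Complex.norm_real,
            Real.norm_of_nonneg hs0.le, hz]
          ring
      _ ≤ 2 * ‖a‖ * (G * (H / (1 - s))) := by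
          refine mul_le_mul ?_ (mul_le_mul hg hh (norm_nonneg _) hG0.le) (by positivity)
            (by positivity)
          rw [div_le_iff₀ hs0]
          nlinarith [norm_nonneg a, hs.1]
      _ = _ := by ring
  have hB : ∀ s ∈ Icc (1 / 2 : ℝ) r,
      HasDerivAt (fun s : ℝ => M / c * G + 2 * ‖a‖ * G * H * (-Real.log (1 - s)))
        (2 * ‖a‖ * G * H / (1 - s)) s := fun s hs => by
    have h1 := ((((hasDerivAt_id s).const_sub 1).log
      (show (1 : ℝ) - s ≠ 0 by linarith [(hmem s hs).2])).neg.const_mul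
      (2 * ‖a‖ * G * H)).const_add (M / c * G)
    refine h1.congr_deriv ?_
    simp only [id]
    ring
  have hstart : ‖Φ (1 / 2)‖ ≤ M / c * G + 2 * ‖a‖ * G * H * (-Real.log (1 - 1 / 2)) := by
    have hH0 : 0 ≤ H := le_trans (by simp) (hH 0 (mem_ball_self one_pos))
    have h1 : (0 : ℝ) ≤ -Real.log (1 - 1 / 2) :=
      neg_nonneg.2 (Real.log_nonpos (by norm_num) (by norm_num))
    have h2 : ‖Φ (1 / 2)‖ ≤ M := by
      rw [hnΦ _ (by norm_num)]
      exact (mul_le_of_le_one_left (norm_nonneg _)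
        (Real.rpow_le_one (by norm_num) (by norm_num) hα.le)).trans
          (hM _ (norm_rad hζ (by norm_num)))
    have h3 : c ≤ G := by
      refine (hc' _ (norm_rad hζ (by norm_num : (0 : ℝ) ≤ 1 / 2))).trans ?_
      rw [← hnG _ (by norm_num)]
      exact radG_mono hα hψ (fun u hu => (hstr u hu).2.1) hζ ⟨by norm_num, by norm_num⟩
        ⟨hr0, hr.2⟩ hr.1
    have h4 : M ≤ M / c * G := by
      rw [div_mul_eq_mul_div, le_div_iff₀ hc]; exact mul_le_mul_of_nonneg_left h3 hM0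
    have : 0 ≤ 2 * ‖a‖ * G * H * (-Real.log (1 - 1 / 2)) := by positivity
    linarith
  have main := image_norm_le_of_norm_deriv_right_le_deriv_boundary' (f := Φ)
    (fun s hs => (hdΦ s hs).continuousAt.continuousWithinAt)
    (fun s hs => (hdΦ s (Ico_subset_Icc_self hs)).hasDerivWithinAt) hstart
    (fun s hs => (hB s hs).continuousAt.continuousWithinAt)
    (fun s hs => (hB s (Ico_subset_Icc_self hs)).hasDerivWithinAt)
    (fun s hs => hbound s (Ico_subset_Icc_self hs)) (right_mem_Icc.2 hr.1)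
  rw [hnΦ r hr0, hG, hnG r hr0] at main
  have hrα : 0 < r ^ α := Real.rpow_pos_of_pos hr0 α
  have hH0 : 0 ≤ H := le_trans (by simp) (hH 0 (mem_ball_self one_pos))
  have hL : 0 ≤ -Real.log (1 - r) :=
    neg_nonneg.2 (Real.log_nonpos (by linarith [hr.2]) (by linarith))
  refine le_of_mul_le_mul_left ?_ hrα
  refine main.trans ?_
  have hP : 0 ≤ r ^ α * ‖Complex.exp (α * ψ ((r : ℂ) * ζ))‖ := by positivity
  have hMc : 0 ≤ M / c := by positivity
  have h2aH : 0 ≤ 2 * ‖a‖ * H := by positivity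
  nlinarith [mul_nonneg (mul_nonneg hMc hL) hP, mul_nonneg h2aH hP]

/-- the pointwise bound -/
theorem bazilevic_pointwise {α β : ℝ} (hα : 0 < α) {f : ℂ → ℂ} (hf : IsBazilevic α β f) :
    ∃ p : ℂ → ℂ, ∃ K C : ℝ, 0 < K ∧ 0 ≤ C ∧ DifferentiableOn ℂ p (ball 0 1) ∧
      (∀ z ∈ ball (0 : ℂ) 1, 0 < (p z).re ∧ deriv f z ≠ 0 ∧
        ‖p z‖ ^ 2 * (1 - ‖z‖) ≤ K * (p z).re) ∧
      ∀ z : ℂ, 1 / 2 ≤ ‖z‖ → ‖z‖ < 1 →
        ‖deriv f z‖⁻¹ ≤ C * (1 - Real.log (1 - ‖z‖)) * ‖p z‖ := by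
  obtain ⟨hfd, hinj, φ, ψ, h, hφ, hψ, hh, hall⟩ := hf
  have hhne : ∀ z ∈ ball (0 : ℂ) 1, h z ≠ 0 := fun z hz e => by
    have := (hall z hz).2.2.1; simp [e] at this
  have hpd : DifferentiableOn ℂ (fun z => (h z)⁻¹) (ball 0 1) := hh.inv hhne
  have hpre : ∀ z ∈ ball (0 : ℂ) 1, 0 < ((h z)⁻¹).re := fun z hz => by
    rw [Complex.inv_re]
    exact div_pos (hall z hz).2.2.1 (Complex.normSq_pos.2 (hhne z hz))
  obtain ⟨K, hK, hKp⟩ := posRe_sq_bound hpd hpre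
  obtain ⟨K', hK', hKh⟩ := posRe_sq_bound hh fun z hz => (hall z hz).2.2.1
  have hH : ∀ z ∈ ball (0 : ℂ) 1, ‖h z‖ * (1 - ‖z‖) ≤ K' := fun z hz => posRe_bound hK' hKh hz
  have hne : ∀ z ∈ ball (0 : ℂ) 1, deriv f z ≠ 0 := fun z hz e => by
    have h1 := (hall z hz).2.2.2
    rw [e, zero_mul] at h1
    exact mul_ne_zero (Complex.exp_ne_zero _) (hhne z hz) h1.symm
  have hsub : sphere (0 : ℂ) (1 / 2) ⊆ ball 0 1 := sphere_subset_ball (by norm_num)
  have hcs := isCompact_sphere (0 : ℂ) (1 / 2)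
  obtain ⟨M, hM⟩ := hcs.exists_bound_of_continuousOn
    (((hφ.continuousOn.mono hsub).const_mul ((α : ℂ) + β * Complex.I)).cexp)
  obtain ⟨z0, -, hz0⟩ := hcs.exists_isMinOn (NormedSpace.sphere_nonempty.2 (by norm_num))
    (((hψ.continuousOn.mono hsub).const_mul (α : ℂ)).cexp.norm)
  set c := (1 / 2 : ℝ) ^ α * ‖Complex.exp (α * ψ z0)‖ with hc
  have hc0 : 0 < c := mul_pos (Real.rpow_pos_of_pos (by norm_num) _)
    (norm_pos_iff.2 (Complex.exp_ne_zero _))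
  obtain ⟨ε, hε, hεb⟩ : ∃ ε > 0, ∀ z : ℂ, 1 / 2 ≤ ‖z‖ → ‖z‖ < 1 → ε ≤ ‖f z‖ := by
    have hz := mem_ball_self (x := (0 : ℂ)) one_pos
    have hs := ((hfd.analyticOnNhd isOpen_ball) 0 hz).hasStrictDerivAt.map_nhds_eq (hne 0 hz)
    have hf0 : f 0 = 0 := by simp [(hall 0 hz).1]
    have : f '' ball 0 (1 / 2) ∈ 𝓝 (0 : ℂ) := by
      have h1 : f '' ball 0 (1 / 2) ∈ map f (𝓝 0) :=
        image_mem_map (ball_mem_nhds (0 : ℂ) (show (0 : ℝ) < 1 / 2 by norm_num))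
      rw [hs, hf0] at h1
      exact h1
    obtain ⟨ε, hε, hsub'⟩ := Metric.mem_nhds_iff.1 this
    refine ⟨ε, hε, fun z h2 h1 => le_of_not_gt fun hlt => ?_⟩
    obtain ⟨u, hu, he⟩ := hsub' (mem_ball_zero_iff.2 hlt)
    have := hinj (ball_subset_ball (by norm_num) hu) (mem_ball_zero_iff.2 h1) he
    rw [this, mem_ball_zero_iff] at hu
    linarith
  set C1 := max M 0 / c + 2 * ‖(α : ℂ) + β * Complex.I‖ * K' with hC1
  refine ⟨fun z => (h z)⁻¹, K, C1 / ε, hK, by positivity, hpd,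
    fun z hz => ⟨hpre z hz, hne z hz, hKp z hz⟩, fun z h2 h1 => ?_⟩
  have hz0' : z ≠ 0 := fun e => by rw [e, norm_zero] at h2; linarith
  set r := ‖z‖ with hr
  have hr0 : 0 < r := norm_pos_iff.2 hz0'
  have hrC : (r : ℂ) ≠ 0 := by exact_mod_cast hr0.ne'
  have hζ : ‖z / (r : ℂ)‖ = 1 := by
    rw [norm_div, Complex.norm_real, Real.norm_of_nonneg hr0.le, ← hr, div_self hr0.ne']
  have hzeq : (r : ℂ) * (z / (r : ℂ)) = z := by field_simp
  have hm := radial_main (h := h) hα hφ hψ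
    (fun u hu => ⟨(hall u hu).1, (hall u hu).2.1, (hall u hu).2.2.2⟩) hc0 (le_max_right M 0) hH
    (fun u hu => (hM u (mem_sphere_zero_iff_norm.2 hu)).trans (le_max_left _ _))
    (fun u hu => mul_le_mul_of_nonneg_left (hz0 (mem_sphere_zero_iff_norm.2 hu)) (by positivity))
    hζ ⟨h2, h1⟩
  rw [hzeq, ← hC1] at hm
  have hzb := mem_ball_zero_iff.2 h1
  obtain ⟨hfz, -, -, hrel⟩ := hall z hzb
  set a : ℂ := (α : ℂ) + β * Complex.I
  set L := 1 - Real.log (1 - r)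
  have hn := congrArg norm hrel
  rw [show (a - 1) * φ z = a * φ z - φ z by ring, Complex.exp_sub, norm_mul, norm_mul,
    norm_div] at hn
  have hfn : ‖f z‖ = r * ‖Complex.exp (φ z)‖ := by rw [hfz, norm_mul]
  have heps : ε ≤ ‖Complex.exp (φ z)‖ :=
    (hεb z h2 h1).trans (hfn ▸ mul_le_of_le_one_left (norm_nonneg _) h1.le)
  have hdf : 0 < ‖deriv f z‖ := norm_pos_iff.2 (hne z hzb)
  have heφ : 0 < ‖Complex.exp (φ z)‖ := norm_pos_iff.2 (Complex.exp_ne_zero _)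
  have heψ : 0 < ‖Complex.exp (α * ψ z)‖ := norm_pos_iff.2 (Complex.exp_ne_zero _)
  have hhz : 0 < ‖h z‖ := norm_pos_iff.2 (hhne z hzb)
  rw [mul_div_assoc', div_eq_iff heφ.ne'] at hn
  show ‖deriv f z‖⁻¹ ≤ C1 / ε * L * ‖(h z)⁻¹‖
  rw [norm_inv, div_mul_eq_mul_div, ← div_eq_mul_inv, div_div, le_div_iff₀ (by positivity),
    ← div_eq_inv_mul, div_le_iff₀ hdf]
  have h5 := mul_le_mul_of_nonneg_left hm hdf.le
  rw [hn] at h5
  have h6 : ‖Complex.exp (α * ψ z)‖ * (ε * ‖h z‖) ≤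
      ‖Complex.exp (α * ψ z)‖ * (C1 * L * ‖deriv f z‖) := by
    have := mul_le_mul_of_nonneg_left heps (mul_nonneg heψ.le hhz.le)
    linarith
  exact le_of_mul_le_mul_left h6 heψ

theorem one_sub_log_le {δ : ℝ} (hδ : 0 < δ) {r : ℝ} (h0 : 0 ≤ r) (h1 : r < 1) :
    1 - Real.log (1 - r) ≤ (1 + 1 / δ) * (1 - r) ^ (-δ) := by
  have hp : 0 < 1 - r := by linarith
  have h2 := Real.log_le_rpow_div (inv_nonneg.2 hp.le) hδ
  rw [Real.log_inv, Real.inv_rpow hp.le, ← Real.rpow_neg hp.le] at h2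
  have h3 : 1 ≤ (1 - r) ^ (-δ) :=
    Real.one_le_rpow_of_pos_of_le_one_of_nonpos hp (by linarith) (by linarith)
  rw [add_mul, one_mul, div_mul_eq_mul_div, one_mul]
  linarith

theorem circle_bound_of_pointwise {g : ℂ → ℝ} {p : ℂ → ℂ}
    (hg : ContinuousOn g (ball 0 1)) (hp : DifferentiableOn ℂ p (ball 0 1)) {A B κ : ℝ}
    (hA : 0 ≤ A) (hB : 0 ≤ B) (hre : 0 < (p 0).re) (hκ : 0 ≤ κ)
    (h : ∀ z : ℂ, 1 / 2 ≤ ‖z‖ → ‖z‖ < 1 → g z ≤ (A + B * (p z).re) * (1 - ‖z‖) ^ (-κ)) :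
    ∃ C, ∀ r ∈ Ioo (0 : ℝ) 1, circleAverage g 0 r ≤ C * (1 - r) ^ (-κ) := by
  obtain ⟨S, hS⟩ := (isCompact_closedBall (0 : ℂ) (1 / 2)).exists_bound_of_continuousOn
    (hg.mono (closedBall_subset_ball (by norm_num)))
  refine ⟨max S 0 + (A + B * (p 0).re), fun r hr => ?_⟩
  have hsub : sphere (0 : ℂ) r ⊆ ball 0 1 := sphere_subset_ball hr.2
  have hint : CircleIntegrable g 0 r := (hg.mono hsub).circleIntegrable hr.1.le
  have hpow : 1 ≤ (1 - r) ^ (-κ) :=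
    Real.one_le_rpow_of_pos_of_le_one_of_nonpos (by linarith [hr.2]) (by linarith [hr.1])
      (by linarith)
  rcases le_or_gt r (1 / 2) with h2 | h2
  · refine le_trans (circleAverage_mono_on_of_le_circle hint fun z hz => ?_) (?_ : max S 0 ≤ _)
    · rw [mem_sphere_zero_iff_norm, abs_of_pos hr.1] at hz
      exact ((le_abs_self _).trans (by
        simpa using hS z (mem_closedBall_zero_iff.2 (hz ▸ h2)))).trans (le_max_left _ _)
    · refine le_trans ?_ (le_mul_of_one_le_right (by positivity) hpow)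
      have : 0 ≤ A + B * (p 0).re := by positivity
      linarith
  · have hpint : CircleIntegrable p 0 r := (hp.continuousOn.mono hsub).circleIntegrable hr.1.le
    have hreint : CircleIntegrable (fun z => (p z).re) 0 r :=
      ((Complex.continuous_re.comp_continuousOn hp.continuousOn).mono hsub).circleIntegrable hr.1.le
    have hm : circleAverage (fun z => (p z).re) 0 r = (p 0).re := by
      have h1 := Complex.reCLM.circleAverage_comp_comm hpint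
      have h3 : circleAverage p 0 r = p 0 := by
        refine DiffContOnCl.circleAverage (DifferentiableOn.diffContOnCl ?_)
        rw [abs_of_pos hr.1, closure_ball (0 : ℂ) hr.1.ne']
        exact hp.mono (closedBall_subset_ball hr.2)
      rw [h3] at h1
      exact h1
    have hint2 : CircleIntegrable (fun z => (A + B * (p z).re) * (1 - r) ^ (-κ)) 0 r :=
      (((continuousOn_const.add ((Complex.continuous_re.comp_continuousOn
        hp.continuousOn).const_mul B)).mul continuousOn_const).mono hsub).circleIntegrable hr.1.le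
    refine (circleAverage_mono hint hint2 fun z hz => ?_).trans ?_
    · rw [mem_sphere_zero_iff_norm, abs_of_pos hr.1] at hz
      simpa [hz] using h z (hz ▸ h2.le) (hz ▸ hr.2)
    · have e : circleAverage (fun z => (A + B * (p z).re) * (1 - r) ^ (-κ)) 0 r =
          (A + B * (p 0).re) * (1 - r) ^ (-κ) := by
        have h1 : (fun z => (A + B * (p z).re) * (1 - r) ^ (-κ)) =
            fun z => ((1 - r) ^ (-κ) * A) + ((1 - r) ^ (-κ) * B) • (p z).re := by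
          funext z; simp only [smul_eq_mul]; ring
        rw [h1, circleAverage_fun_add (circleIntegrable_const _ _ _) (hreint.const_fun_smul),
          circleAverage_const, circleAverage_fun_smul, hm, smul_eq_mul]
        ring
      rw [e]
      exact mul_le_mul_of_nonneg_right (le_add_of_nonneg_left (le_max_right _ _)) (by positivity)

theorem continuousOn_pow_deriv {α β : ℝ} (hα : 0 < α) {f : ℂ → ℂ} (hf : IsBazilevic α β f)
    (t : ℝ) : ContinuousOn (fun z => ‖deriv f z‖ ^ t) (ball 0 1) := by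
  obtain ⟨p, K, C, -, -, -, hp, -⟩ := bazilevic_pointwise hα hf
  exact (hf.1.deriv isOpen_ball).continuousOn.norm.rpow_const
    fun z hz => .inl (norm_ne_zero_iff.2 (hp z hz).2.1)

theorem rpow_neg_le {α β : ℝ} (hα : 0 < α) {f : ℂ → ℂ} (hf : IsBazilevic α β f) :
    ∃ p : ℂ → ℂ, ∃ K : ℝ, 0 < K ∧ DifferentiableOn ℂ p (ball 0 1) ∧
      (∀ z ∈ ball (0 : ℂ) 1, 0 < (p z).re ∧ ‖p z‖ ^ 2 * (1 - ‖z‖) ≤ K * (p z).re) ∧
      ∀ τ δ : ℝ, 0 ≤ τ → 0 < δ → ∃ D : ℝ, 0 ≤ D ∧ ∀ z : ℂ, 1 / 2 ≤ ‖z‖ → ‖z‖ < 1 →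
        ‖deriv f z‖ ^ (-τ) ≤ D * (1 - ‖z‖) ^ (-(δ * τ)) * ‖p z‖ ^ τ := by
  obtain ⟨p, K, C, hK, hC, hpd, hp, hb⟩ := bazilevic_pointwise hα hf
  refine ⟨p, K, hK, hpd, fun z hz => ⟨(hp z hz).1, (hp z hz).2.2⟩, fun τ δ hτ hδ =>
    ⟨(C * (1 + 1 / δ)) ^ τ, by positivity, fun z h2 h1 => ?_⟩⟩
  have hn := norm_nonneg (deriv f z)
  have h0 : 0 ≤ 1 - ‖z‖ := by linarith
  rw [Real.rpow_neg hn, ← Real.inv_rpow hn, neg_mul_eq_neg_mul, Real.rpow_mul h0,
    ← Real.mul_rpow (by positivity) (by positivity),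
    ← Real.mul_rpow (by positivity) (norm_nonneg _)]
  refine Real.rpow_le_rpow (inv_nonneg.2 hn) ((hb z h2 h1).trans ?_) hτ
  refine mul_le_mul_of_nonneg_right ?_ (norm_nonneg _)
  rw [mul_assoc]
  exact mul_le_mul_of_nonneg_left (one_sub_log_le hδ (norm_nonneg z) h1) hC

/-- growth of the means for `t ≤ -2` -/
theorem bazilevic_mean {α β : ℝ} (hα : 0 < α) {f : ℂ → ℂ} (hf : IsBazilevic α β f) {t : ℝ}
    (ht : t ≤ -2) {ε : ℝ} (hε : 0 < ε) :
    ∃ C, ∀ r ∈ Ioo (0 : ℝ) 1,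
      circleAverage (fun z => ‖deriv f z‖ ^ t) 0 r ≤ C * (1 - r) ^ (-(|t| - 1 + ε)) := by
  obtain ⟨p, K, hK, hpd, hp, hb⟩ := rpow_neg_le hα hf
  rw [abs_of_nonpos (by linarith)]
  obtain ⟨τ, rfl⟩ : ∃ τ, t = -τ := ⟨-t, by ring⟩
  rw [neg_neg]
  obtain ⟨D, hD0, hD⟩ := hb τ (ε / τ) (by linarith) (div_pos hε (by linarith))
  refine circle_bound_of_pointwise (continuousOn_pow_deriv hα hf _) hpd le_rfl
    (B := D * (K ^ (τ - 2) * K)) (by positivity)
    (hp 0 (mem_ball_self one_pos)).1 (by linarith) fun z h2 h1 => (hD z h2 h1).trans ?_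
  have hzb := mem_ball_zero_iff.2 h1
  have hu : 0 < 1 - ‖z‖ := by linarith
  set u := 1 - ‖z‖
  have hpn : 0 < ‖p z‖ := lt_of_lt_of_le (hp z hzb).1 (Complex.re_le_norm _)
  have hq : ‖p z‖ ≤ K / u := by
    rw [le_div_iff₀ hu]
    exact posRe_bound hK (fun w hw => (hp w hw).2) hzb
  have h3 : ‖p z‖ ^ τ ≤ K ^ (τ - 2) * K * (p z).re * u ^ (-(τ - 1)) := by
    have hpos := (hp z hzb).1
    calc ‖p z‖ ^ τ = ‖p z‖ ^ (τ - 2) * ‖p z‖ ^ 2 := by
          rw [← Real.rpow_two, ← Real.rpow_add hpn]; ring_nf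
      _ ≤ (K / u) ^ (τ - 2) * (K * (p z).re / u) := by
          refine mul_le_mul (Real.rpow_le_rpow hpn.le hq (by linarith)) ?_ (by positivity)
            (by positivity)
          rw [le_div_iff₀ hu]
          exact (hp z hzb).2
      _ = _ := by
          rw [Real.div_rpow hK.le hu.le, show -(τ - 1) = -(τ - 2) + -1 by ring,
            Real.rpow_add hu, Real.rpow_neg hu.le, Real.rpow_neg_one]
          ring
  rw [zero_add]
  have hz' : ε / τ * τ = ε := div_mul_cancel₀ _ (by linarith)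
  rw [hz']
  calc D * u ^ (-ε) * ‖p z‖ ^ τ
      ≤ D * u ^ (-ε) * (K ^ (τ - 2) * K * (p z).re * u ^ (-(τ - 1))) :=
        mul_le_mul_of_nonneg_left h3 (by positivity)
    _ = _ := by
        rw [show -(τ - 1 + ε) = -ε + -(τ - 1) by ring, Real.rpow_add hu]
        ring

/-- integrability for `-2 < t ≤ 0` -/
theorem bazilevic_integrable {α β : ℝ} (hα : 0 < α) {f : ℂ → ℂ} (hf : IsBazilevic α β f) {t : ℝ}
    (ht : t ∈ Ioc (-2 : ℝ) 0) : IntegrableOn (fun z => ‖deriv f z‖ ^ t) (ball 0 1) := by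
  obtain ⟨p, K, hK, hpd, hp, hb⟩ := rpow_neg_le hα hf
  obtain ⟨τ, rfl⟩ : ∃ τ, t = -τ := ⟨-t, by ring⟩
  have hτ2 : τ < 2 := by linarith [ht.1]
  have hτ0 : 0 ≤ τ := by linarith [ht.2]
  have hδ : 0 < (2 - τ) / 8 := by linarith
  obtain ⟨D, hD0, hD⟩ := hb τ _ hτ0 hδ
  have hκ : (2 - τ) / 8 * τ + τ / 2 < 1 := by nlinarith
  have hc := circle_bound_of_pointwise (continuousOn_pow_deriv hα hf (-τ)) hpd
    (A := D) (B := D * K) hD0 (by positivity) (hp 0 (mem_ball_self one_pos)).1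
    (κ := (2 - τ) / 8 * τ + τ / 2) (by positivity) fun z h2 h1 => (hD z h2 h1).trans ?_
  · obtain ⟨C, hC⟩ := hc
    exact integrableOn_ball_of_circle_bound (continuousOn_pow_deriv hα hf _)
      (fun z _ => by positivity) hκ hC
  · have hzb := mem_ball_zero_iff.2 h1
    have hu : 0 < 1 - ‖z‖ := by linarith
    set u := 1 - ‖z‖
    have hy : 0 ≤ K * (p z).re := mul_nonneg hK.le (hp z hzb).1.le
    have h3 : ‖p z‖ ^ τ ≤ (1 + K * (p z).re) * u ^ (-(τ / 2)) := by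
      calc ‖p z‖ ^ τ = (‖p z‖ ^ 2) ^ (τ / 2) := by
            rw [← Real.rpow_two, ← Real.rpow_mul (norm_nonneg _)]; ring_nf
        _ ≤ (K * (p z).re / u) ^ (τ / 2) := by
            refine Real.rpow_le_rpow (by positivity) ?_ (by linarith)
            rw [le_div_iff₀ hu]
            exact (hp z hzb).2
        _ ≤ _ := by
            rw [Real.div_rpow hy hu.le, div_eq_mul_inv, ← Real.rpow_neg hu.le]
            refine mul_le_mul_of_nonneg_right ?_ (by positivity)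
            exact (Real.rpow_le_rpow hy (by linarith) (by linarith)).trans
              (Real.rpow_le_self_of_one_le (by linarith) (by linarith))
    calc D * u ^ (-((2 - τ) / 8 * τ)) * ‖p z‖ ^ τ
        ≤ D * u ^ (-((2 - τ) / 8 * τ)) * ((1 + K * (p z).re) * u ^ (-(τ / 2))) :=
          mul_le_mul_of_nonneg_left h3 (by positivity)
      _ = _ := by
          rw [neg_add, Real.rpow_add hu]
          ring

end

end Vale.Agent.P142
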