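import Mathlib

/-!
Integrability over the unit disc from circle averages (helper file for P142).
-/

namespace Vale.Agent.P142

open Metric Filter Topology Real MeasureTheory Set

noncomputable section

theorem integral_ball_eq {g : ℂ → ℝ} {ρ : ℝ} (hρ : 0 ≤ ρ) (hg : ContinuousOn g (closedBall 0 ρ)) :
    ∫ z in ball (0 : ℂ) ρ, g z = ∫ r in 0..ρ, 2 * π * r * circleAverage g 0 r := by
  rw [← integral_indicator measurableSet_ball, ← Complex.integral_comp_polarCoord_symm]
  set F : ℝ × ℝ → ℝ := fun p => p.1 * g (circleMap 0 p.1 p.2) with hF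
  have hsub : Ioo (0 : ℝ) ρ ×ˢ Ioo (-π) π ⊆ polarCoord.target :=
    fun p hp => ⟨hp.1.1, hp.2⟩
  have e : ∫ p in polarCoord.target,
      p.1 • (ball (0 : ℂ) ρ).indicator g (Complex.polarCoord.symm p) =
      ∫ p in Ioo (0 : ℝ) ρ ×ˢ Ioo (-π) π, F p := by
    have h2 := setIntegral_indicator (f := F) (s := polarCoord.target) (μ := volume)
      ((measurableSet_Ioo (a := (0 : ℝ)) (b := ρ)).prod (measurableSet_Ioo (a := -π) (b := π)))
    rw [inter_eq_self_of_subset_right hsub] at h2
    rw [← h2]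
    refine setIntegral_congr_fun polarCoord.open_target.measurableSet fun p hp => ?_
    have hp1 : 0 < p.1 := hp.1
    have hc : Complex.polarCoord.symm p = circleMap 0 p.1 p.2 := by
      simp [circleMap, Complex.exp_mul_I]
    have hn : ‖circleMap 0 p.1 p.2‖ = p.1 := by simp [abs_of_pos hp1]
    rw [hc]
    by_cases h : p.1 < ρ
    · rw [Set.indicator_of_mem (show p ∈ Ioo (0 : ℝ) ρ ×ˢ Ioo (-π) π from ⟨⟨hp1, h⟩, hp.2⟩),
        Set.indicator_of_mem (show circleMap 0 p.1 p.2 ∈ ball (0 : ℂ) ρ by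
          rw [mem_ball_zero_iff, hn]; exact h)]
      rfl
    · rw [Set.indicator_of_notMem (s := Ioo (0 : ℝ) ρ ×ˢ Ioo (-π) π) (fun hp' => h hp'.1.2),
        Set.indicator_of_notMem (fun hm => h (by rwa [mem_ball_zero_iff, hn] at hm)), smul_zero]
  rw [e]
  have hcont : ContinuousOn F (Icc (0 : ℝ) ρ ×ˢ Icc (-π) π) := by
    refine continuousOn_fst.mul (hg.comp (by unfold circleMap; fun_prop) fun p hp => ?_)
    simpa [abs_of_nonneg hp.1.1] using hp.1.2
  have hint : IntegrableOn F (Ioo (0 : ℝ) ρ ×ˢ Ioo (-π) π) (volume.prod volume) :=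
    (hcont.integrableOn_compact (isCompact_Icc.prod isCompact_Icc)).mono_set
      (prod_mono Ioo_subset_Icc_self Ioo_subset_Icc_self)
  rw [Measure.volume_eq_prod, setIntegral_prod F hint, intervalIntegral.integral_of_le hρ,
    integral_Ioc_eq_integral_Ioo]
  refine setIntegral_congr_fun measurableSet_Ioo fun r hr => ?_
  show ∫ θ in Ioo (-π) π, r * g (circleMap 0 r θ) = _
  have hper : ∫ θ in (-π)..π, g (circleMap 0 r θ) = ∫ θ in 0..2 * π, g (circleMap 0 r θ) := by
    have h := ((periodic_circleMap 0 r).comp g).intervalIntegral_add_eq (-π) 0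
    rw [show -π + 2 * π = π by ring, zero_add] at h
    exact h
  rw [integral_const_mul, ← integral_Ioc_eq_integral_Ioo,
    ← intervalIntegral.integral_of_le (by linarith [pi_pos]), hper, circleAverage_def,
    smul_eq_mul]
  have := pi_pos
  field_simp

theorem integrableOn_ball_of_bound {g : ℂ → ℝ} (hg : ContinuousOn g (ball 0 1))
    (hg0 : ∀ z ∈ ball (0 : ℂ) 1, 0 ≤ g z) {C : ℝ}
    (hC : ∀ ρ, 0 < ρ → ρ < 1 → ∫ r in 0..ρ, r * circleAverage g 0 r ≤ C) :
    IntegrableOn g (ball 0 1) := by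
  refine ⟨hg.aestronglyMeasurable measurableSet_ball, ?_⟩
  rw [hasFiniteIntegral_iff_ofReal ((ae_restrict_iff' measurableSet_ball).2
    (Eventually.of_forall hg0))]
  refine lt_of_le_of_lt ?_ (ENNReal.ofReal_lt_top (r := 2 * π * C))
  set ρ : ℕ → ℝ := fun n => 1 - 1 / ((n : ℝ) + 2) with hρ
  have hρ1 : ∀ n, 0 < ρ n ∧ ρ n < 1 := fun n => by
    have h2 : (1 : ℝ) / ((n : ℝ) + 2) < 1 := by
      rw [div_lt_one (by positivity)]; linarith [n.cast_nonneg (α := ℝ)]
    exact ⟨by simp only [hρ]; linarith,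
      by simp only [hρ]; linarith [show (0 : ℝ) < 1 / ((n : ℝ) + 2) by positivity]⟩
  have hmono : Monotone fun n => ball (0 : ℂ) (ρ n) := fun m n hmn => ball_subset_ball (by
    simp only [hρ]
    gcongr)
  have hU : ball (0 : ℂ) 1 = ⋃ n, ball (0 : ℂ) (ρ n) := by
    refine Subset.antisymm (fun z hz => ?_) (iUnion_subset fun n => ball_subset_ball (hρ1 n).2.le)
    rw [mem_ball_zero_iff] at hz
    obtain ⟨n, hn⟩ := exists_nat_gt (1 / (1 - ‖z‖))
    refine mem_iUnion.2 ⟨n, mem_ball_zero_iff.2 ?_⟩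
    rw [div_lt_iff₀ (by linarith)] at hn
    have : 1 / ((n : ℝ) + 2) < 1 - ‖z‖ := by
      rw [div_lt_iff₀ (by positivity)]; nlinarith
    simp only [hρ]
    linarith
  rw [hU, setLIntegral_iUnion_of_directed _ hmono.directed_le]
  refine iSup_le fun n => ?_
  have hc : ContinuousOn g (closedBall 0 (ρ n)) := hg.mono (closedBall_subset_ball (hρ1 n).2)
  rw [← ofReal_integral_eq_lintegral_ofReal ((hc.integrableOn_compact
    (isCompact_closedBall _ _)).mono_set ball_subset_closedBall)
    ((ae_restrict_iff' measurableSet_ball).2 (Eventually.of_forall fun z hz =>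
      hg0 z (ball_subset_ball (hρ1 n).2.le hz))), integral_ball_eq (hρ1 n).1.le hc]
  refine ENNReal.ofReal_le_ofReal ?_
  simp only [mul_assoc, intervalIntegral.integral_const_mul]
  have := mul_le_mul_of_nonneg_left (hC _ (hρ1 n).1 (hρ1 n).2) (by positivity : (0 : ℝ) ≤ 2 * π)
  linarith

theorem integrableOn_ball_of_circle_bound {g : ℂ → ℝ} (hg : ContinuousOn g (ball 0 1))
    (hg0 : ∀ z ∈ ball (0 : ℂ) 1, 0 ≤ g z) {C κ : ℝ} (hκ : κ < 1)
    (hC : ∀ r ∈ Ioo (0 : ℝ) 1, circleAverage g 0 r ≤ C * (1 - r) ^ (-κ)) :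
    IntegrableOn g (ball 0 1) := by
  refine integrableOn_ball_of_bound hg hg0 (C := max C 0 * (1 / (1 - κ))) fun ρ h0 h1 => ?_
  have hd : ∀ r ∈ uIcc (0 : ℝ) ρ, HasDerivAt (fun r : ℝ => -(1 - r) ^ (1 - κ) / (1 - κ))
      ((1 - r) ^ (-κ)) r := fun r hr => by
    rw [uIcc_of_le h0.le] at hr
    have h := (((hasDerivAt_id r).const_sub 1).rpow_const (p := 1 - κ)
      (.inl (show (1 : ℝ) - r ≠ 0 by linarith [hr.2]))).neg.div_const (1 - κ)
    refine h.congr_deriv ?_
    rw [show (1 : ℝ) - κ - 1 = -κ by ring]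
    have : (1 : ℝ) - κ ≠ 0 := by linarith
    simp only [id]
    field_simp
  have hcont : ContinuousOn (fun r : ℝ => (1 - r) ^ (-κ)) (uIcc 0 ρ) := fun r hr =>
    ((continuousAt_const.sub continuousAt_id).rpow_const (.inl (by
      rw [uIcc_of_le h0.le] at hr
      show (1 : ℝ) - r ≠ 0
      linarith [hr.2]))).continuousWithinAt
  have hF := intervalIntegral.integral_eq_sub_of_hasDerivAt hd hcont.intervalIntegrable
  have hav : ContinuousOn (circleAverage g 0) (Icc 0 ρ) :=
    ContinuousOn.circleAverage (hg.mono fun z hz => by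
      simp only [Set.mem_ofPred_eq, sub_zero, Set.mem_Icc] at hz
      simpa using lt_of_le_of_lt hz.2 h1) fun r hr => hr.1
  calc ∫ r in 0..ρ, r * circleAverage g 0 r
      ≤ ∫ r in 0..ρ, max C 0 * (1 - r) ^ (-κ) := by
        refine intervalIntegral.integral_mono_on_of_le_Ioo h0.le
          ((continuousOn_id.mul hav).intervalIntegrable_of_Icc h0.le)
          (hcont.intervalIntegrable.const_mul _) fun r hr => ?_
        have hr1 : r < 1 := hr.2.trans h1
        have hp : 0 ≤ (1 - r) ^ (-κ) := rpow_nonneg (by linarith) _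
        refine le_trans ?_ (mul_le_mul_of_nonneg_right (le_max_left C 0) hp |>.trans' le_rfl)
        rcases le_or_gt 0 (circleAverage g 0 r) with ha | ha
        · exact (mul_le_of_le_one_left ha hr1.le).trans (hC r ⟨hr.1, hr1⟩)
        · have hb : 0 ≤ circleAverage g 0 r := by
            have := circleAverage_mono (f₁ := fun _ => (0 : ℝ)) (f₂ := g) (c := 0) (R := r)
              (circleIntegrable_const _ _ _) ((hg.mono (by
                intro z hz
                rw [mem_sphere_zero_iff_norm] at hz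
                simpa [hz] using hr1)).circleIntegrable hr.1.le)
              (fun z hz => hg0 z (by
                rw [mem_sphere_zero_iff_norm, abs_of_pos hr.1] at hz
                simpa [hz] using hr1))
            rwa [circleAverage_const] at this
          linarith
    _ ≤ max C 0 * (1 / (1 - κ)) := by
        rw [intervalIntegral.integral_const_mul, hF]
        refine mul_le_mul_of_nonneg_left ?_ (le_max_right _ _)
        simp only [sub_zero, Real.one_rpow]
        have h2 : 0 ≤ (1 - ρ) ^ (1 - κ) / (1 - κ) :=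
          div_nonneg (rpow_nonneg (by linarith) _) (by linarith)
        rw [neg_div]
        ring_nf at h2 ⊢
        linarith

end

end Vale.Agent.P142
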