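import Vale.Agent.P142.Series
import Vale.Agent.P142.Disk
import Vale.Agent.P142.Defs

/-!
Brennan's bound for locally univalent functions with Schwarzian norm at most `3.89` (P142).
-/

namespace Vale.Agent.P142

open Metric Filter Topology Real MeasureTheory

noncomputable section

/-- `v = 1/f'` -/
def vv (f : ℂ → ℂ) (z : ℂ) : ℂ := (deriv f z)⁻¹
/-- `w = v'²/(4v)` -/
def ww (f : ℂ → ℂ) (z : ℂ) : ℂ := deriv (vv f) z ^ 2 / (4 * vv f z)
/-- `Q = -(S/2) v` -/
def qq (f : ℂ → ℂ) (z : ℂ) : ℂ := -(schwarz f z / 2) * vv f z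

variable {f : ℂ → ℂ} (hf : DifferentiableOn ℂ f (ball 0 1))
  (hne : ∀ z ∈ ball (0 : ℂ) 1, deriv f z ≠ 0)

include hf hne

theorem vv_diff : DifferentiableOn ℂ (vv f) (ball 0 1) := (differentiableOn_deriv hf).inv hne

theorem vv_ne {z : ℂ} (hz : z ∈ ball (0 : ℂ) 1) : vv f z ≠ 0 := inv_ne_zero (hne z hz)

theorem ww_diff : DifferentiableOn ℂ (ww f) (ball 0 1) :=
  ((differentiableOn_deriv (vv_diff hf hne)).pow 2).div ((vv_diff hf hne).const_mul 4)
    fun z hz => mul_ne_zero (by norm_num) (vv_ne hf hne hz)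

theorem qq_diff : DifferentiableOn ℂ (qq f) (ball 0 1) := by
  have d1 := differentiableOn_deriv hf
  have d2 := differentiableOn_deriv d1
  have d3 := differentiableOn_deriv d2
  exact ((((d3.div d1 hne).sub (((d2.div d1 hne).pow 2).const_mul (3 / 2))).div_const 2).neg).mul
    (vv_diff hf hne)

theorem deriv_vv {z : ℂ} (hz : z ∈ ball (0 : ℂ) 1) :
    deriv (vv f) z = -deriv (deriv f) z / deriv f z ^ 2 :=
  (((differentiableOn_deriv hf).differentiableAt (isOpen_ball.mem_nhds hz)).hasDerivAt.inv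
    (hne z hz)).deriv

theorem deriv2_vv {z : ℂ} (hz : z ∈ ball (0 : ℂ) 1) :
    deriv (deriv (vv f)) z = 2 * (ww f z + qq f z) := by
  have e : deriv (deriv (vv f)) z = deriv (fun u => -deriv (deriv f) u / deriv f u ^ 2) z :=
    (Filter.eventuallyEq_of_mem (isOpen_ball.mem_nhds hz)
      fun u hu => deriv_vv hf hne hu).deriv_eq
  have d1 := differentiableOn_deriv hf
  have d2 := differentiableOn_deriv d1
  have h1 := (d1.differentiableAt (isOpen_ball.mem_nhds hz)).hasDerivAt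
  have h2 := (d2.differentiableAt (isOpen_ball.mem_nhds hz)).hasDerivAt
  have hd := (h2.fun_neg.fun_div (h1.fun_pow 2) (pow_ne_zero 2 (hne z hz))).deriv
  have hn := hne z hz
  rw [e, hd, ww, qq, vv, schwarz, deriv_vv hf hne hz]
  field_simp
  push_cast
  ring

theorem deriv_ww {z : ℂ} (hz : z ∈ ball (0 : ℂ) 1) :
    deriv (ww f) z = deriv (vv f) z / vv f z * qq f z := by
  have hv := vv_diff hf hne
  have h1 := (hv.differentiableAt (isOpen_ball.mem_nhds hz)).hasDerivAt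
  have h2 := ((differentiableOn_deriv hv).differentiableAt (isOpen_ball.mem_nhds hz)).hasDerivAt
  have hd := ((h2.fun_pow 2).fun_div (h1.const_mul 4)
    (mul_ne_zero (by norm_num) (vv_ne hf hne hz))).deriv
  have hn := vv_ne hf hne hz
  rw [show ww f = fun u => deriv (vv f) u ^ 2 / (4 * vv f u) from rfl, hd,
    deriv2_vv hf hne hz, ww]
  field_simp
  push_cast
  ring

variable (hS : ∀ z ∈ ball (0 : ℂ) 1, (1 - ‖z‖ ^ 2) ^ 2 * ‖schwarz f z‖ ≤ 389 / 100)

include hS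

theorem qq_bound {z : ℂ} (hz : ‖z‖ < 1) :
    (1 - ‖z‖ ^ 2) ^ 2 * ‖qq f z‖ ≤ 389 / 200 * ‖vv f z‖ := by
  have h := hS z (mem_ball_zero_iff.2 hz)
  rw [qq, norm_mul, norm_neg, norm_div, Complex.norm_ofNat, ← mul_assoc]
  refine mul_le_mul_of_nonneg_right ?_ (norm_nonneg _)
  linarith

theorem ww_bound {z : ℂ} (hz : ‖z‖ < 1) :
    (1 - ‖z‖ ^ 2) ^ 2 * ‖deriv (ww f) z‖ ≤ 389 / 200 * ‖deriv (vv f) z‖ := by
  have hzb := mem_ball_zero_iff.2 hz
  have h := qq_bound hf hne hS hz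
  have hv : 0 < ‖vv f z‖ := norm_pos_iff.2 (vv_ne hf hne hzb)
  rw [deriv_ww hf hne hzb, norm_mul, norm_div]
  calc (1 - ‖z‖ ^ 2) ^ 2 * (‖deriv (vv f) z‖ / ‖vv f z‖ * ‖qq f z‖)
      = ‖deriv (vv f) z‖ / ‖vv f z‖ * ((1 - ‖z‖ ^ 2) ^ 2 * ‖qq f z‖) := by ring
    _ ≤ ‖deriv (vv f) z‖ / ‖vv f z‖ * (389 / 200 * ‖vv f z‖) :=
        mul_le_mul_of_nonneg_left h (by positivity)
    _ = _ := by field_simp

omit hS in
theorem en_second_le {ρ : ℝ} (h0 : 0 ≤ ρ) (h1 : ρ < 1) :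
    en (deriv (deriv (vv f))) 4 ρ ≤
      39 / 2 * en (ww f) 4 ρ + 156 / 31 * en (qq f) 4 ρ := by
  have hv := vv_diff hf hne
  have hF := differentiableOn_deriv (differentiableOn_deriv hv)
  have hG := ww_diff hf hne
  have hH := qq_diff hf hne
  have hint : ∀ F : ℂ → ℂ, DifferentiableOn ℂ F (ball 0 1) →
      IntervalIntegrable (fun x : ℝ => (1 - x) ^ 4 * msq F ρ x) volume 0 1 := fun F hF =>
    (((by fun_prop : Continuous fun x : ℝ => (1 - x) ^ 4).continuousOn.mul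
      (continuousOn_msq hF h0 h1)).intervalIntegrable_of_Icc zero_le_one)
  rw [en, en, en, ← intervalIntegral.integral_const_mul, ← intervalIntegral.integral_const_mul,
    ← intervalIntegral.integral_add ((hint _ hG).const_mul _) ((hint _ hH).const_mul _)]
  refine intervalIntegral.integral_mono_on zero_le_one (hint _ hF)
    (((hint _ hG).const_mul _).add ((hint _ hH).const_mul _)) fun x hx => ?_
  have hr0 : 0 ≤ ρ * √x := by positivity
  have hr1 : ρ * √x < 1 := lt_of_le_of_lt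
    (mul_le_of_le_one_right h0 (Real.sqrt_le_one.2 hx.2)) h1
  have hc : ∀ F : ℂ → ℂ, DifferentiableOn ℂ F (ball 0 1) → ∀ c : ℝ,
      CircleIntegrable (fun z => c * ‖F z‖ ^ 2) 0 (ρ * √x) := fun F hF c =>
    (((hF.continuousOn.norm.pow 2).const_mul c).mono
      (sphere_subset_ball hr1)).circleIntegrable hr0
  have key : msq (deriv (deriv (vv f))) ρ x ≤
      39 / 2 * msq (ww f) ρ x + 156 / 31 * msq (qq f) ρ x := by
    unfold msq
    rw [← smul_eq_mul (39 / 2 : ℝ), ← circleAverage_fun_smul, ← smul_eq_mul (156 / 31 : ℝ),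
      ← circleAverage_fun_smul]
    simp only [smul_eq_mul]
    rw [← circleAverage_fun_add (hc _ hG _) (hc _ hH _)]
    refine circleAverage_mono (by simpa using hc _ hF 1) ((hc _ hG _).add (hc _ hH _))
      fun z hz => ?_
    rw [mem_sphere_zero_iff_norm, abs_of_nonneg hr0] at hz
    rw [deriv2_vv hf hne (mem_ball_zero_iff.2 (hz ▸ hr1)), norm_mul, Complex.norm_ofNat]
    have ht := norm_add_le (ww f z) (qq f z)
    have h4 := pow_le_pow_left₀ (norm_nonneg _) ht 2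
    nlinarith [sq_nonneg (31 * ‖ww f z‖ - 8 * ‖qq f z‖)]
  calc (1 - x) ^ 4 * msq (deriv (deriv (vv f))) ρ x
      ≤ (1 - x) ^ 4 * (39 / 2 * msq (ww f) ρ x + 156 / 31 * msq (qq f) ρ x) :=
        mul_le_mul_of_nonneg_left key (by positivity)
    _ = _ := by ring

theorem en_bounded : ∃ C, ∀ ρ, 0 ≤ ρ → ρ < 1 → en (vv f) 0 ρ ≤ C := by
  have hv := vv_diff hf hne
  have hv' := differentiableOn_deriv hv
  have hw := ww_diff hf hne
  obtain ⟨C1, a1⟩ := en_le_deriv hv 0 (e := 1 / 10000) (by norm_num) (by norm_num)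
  obtain ⟨C2, a2⟩ := en_le_deriv hv' 2 (e := 1 / 10000) (by norm_num) (by norm_num)
  obtain ⟨C3, a3⟩ := en_le_deriv hw 4 (e := 1 / 10000) (by norm_num) (by norm_num)
  refine ⟨100 * (20 * |C1| + |C2| + |C3|), fun ρ h0 h1 => ?_⟩
  set E0 := en (vv f) 0 ρ
  set E2 := en (deriv (vv f)) 2 ρ
  set Ew := en (ww f) 4 ρ
  set E4 := en (deriv (deriv (vv f))) 4 ρ
  set W6 := en (deriv (ww f)) 6 ρ
  set EQ := en (qq f) 4 ρ
  have r2 : ρ ^ 2 ≤ 1 := pow_le_one₀ h0 h1.le
  have r0 : 0 ≤ ρ ^ 2 := sq_nonneg ρ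
  have p0 : 0 ≤ E0 := en_nonneg hv 0 h0 h1
  have p2 : 0 ≤ E2 := en_nonneg hv' 2 h0 h1
  have pw : 0 ≤ Ew := en_nonneg hw 4 h0 h1
  have pQ : 0 ≤ EQ := en_nonneg (qq_diff hf hne) 4 h0 h1
  have b1 := a1 ρ h0 h1
  have b2 := a2 ρ h0 h1
  have b3 : (4 + 1 : ℝ) * (4 + 2) * (1 - 1 / 10000) * Ew ≤ ρ ^ 2 * W6 + C3 := by
    simpa using a3 ρ h0 h1
  have b4 : W6 ≤ (389 / 200) ^ 2 * E2 :=
    en_le_of_bound hv' (differentiableOn_deriv hw) _ (fun z => ww_bound hf hne hS) 2 h0 h1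
  have b5 : EQ ≤ (389 / 200) ^ 2 * E0 :=
    en_le_of_bound hv (qq_diff hf hne) _ (fun z => qq_bound hf hne hS) 0 h0 h1
  have b6 : E4 ≤ 39 / 2 * Ew + 156 / 31 * EQ := en_second_le hf hne h0 h1
  have b7 : ρ ^ 2 * E2 ≤ 2 * E0 := by simpa using en_deriv_le hv 0 h0 h1
  simp only [Nat.cast_zero, Nat.cast_ofNat] at b1 b2
  have c3 : ρ ^ 2 * W6 ≤ (389 / 200) ^ 2 * (2 * E0) :=
    (mul_le_mul_of_nonneg_left b4 r0).trans (by nlinarith)
  have c6 : ρ ^ 2 * E4 ≤ 39 / 2 * Ew + 156 / 31 * EQ :=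
    (mul_le_mul_of_nonneg_left b6 r0).trans
      (mul_le_of_le_one_left (by positivity) r2)
  have c2 : ρ ^ 2 * (12 * (1 - 1 / 10000) * E2) ≤ ρ ^ 2 * E4 + |C2| := by
    have : (2 + 1 : ℝ) * (2 + 2) * (1 - 1 / 10000) * E2 ≤ ρ ^ 2 * E4 + C2 := b2
    have hE4 : 0 ≤ E4 := en_nonneg (differentiableOn_deriv hv') 4 h0 h1
    calc ρ ^ 2 * (12 * (1 - 1 / 10000) * E2) ≤ 1 * (12 * (1 - 1 / 10000) * E2) :=
          mul_le_mul_of_nonneg_right r2 (by positivity)
      _ ≤ _ := by linarith [le_abs_self C2]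
  have hb : (389 / 200 : ℝ) ^ 2 = 151321 / 40000 := by norm_num
  rw [hb] at c3 b5
  nlinarith [le_abs_self C1, le_abs_self C3, abs_nonneg C1, abs_nonneg C2, abs_nonneg C3]

/-- means of `|f'|⁻²` grow at most like `1/(1-r)` -/
theorem schwarz_mean : ∃ C, ∀ r ∈ Set.Ioo (0 : ℝ) 1,
    circleAverage (fun z => ‖deriv f z‖ ^ (-2 : ℝ)) 0 r ≤ C * (1 - r) ^ (-1 : ℝ) := by
  obtain ⟨C, hC⟩ := en_bounded hf hne hS
  refine ⟨C, fun r hr => ?_⟩
  have hv := vv_diff hf hne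
  have hs1 : √r < 1 := by
    have := Real.sqrt_lt_sqrt hr.1.le hr.2
    rwa [Real.sqrt_one] at this
  have hc := continuousOn_msq hv (Real.sqrt_nonneg r) hs1
  have h := hC _ (Real.sqrt_nonneg r) hs1
  have hmono : ∀ x ∈ Set.Icc r 1, msq (vv f) √r r ≤ msq (vv f) √r x := fun x hx =>
    hasSum_le (fun n => mul_le_mul_of_nonneg_left (pow_le_pow_left₀ hr.1.le hx.1 n) (by positivity))
      (hasSum_msq hv (Real.sqrt_nonneg r) hs1 hr.1.le hr.2.le)
      (hasSum_msq hv (Real.sqrt_nonneg r) hs1 (hr.1.le.trans hx.1) hx.2)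
  have hint := hc.intervalIntegrable_of_Icc zero_le_one (μ := volume)
  have hpos : ∀ x ∈ Set.Icc (0 : ℝ) 1, 0 ≤ msq (vv f) √r x := fun x hx =>
    (hasSum_msq hv (Real.sqrt_nonneg r) hs1 hx.1 hx.2).nonneg fun n => by
      have := hx.1; positivity
  have hlow : (1 - r) * msq (vv f) √r r ≤ en (vv f) 0 √r := by
    have hsub : Set.uIcc r 1 ⊆ Set.uIcc (0 : ℝ) 1 := by
      rw [Set.uIcc_of_le hr.2.le, Set.uIcc_of_le zero_le_one]
      exact Set.Icc_subset_Icc_left hr.1.le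
    calc (1 - r) * msq (vv f) √r r = ∫ _x in r..1, msq (vv f) √r r := by simp
      _ ≤ ∫ x in r..1, msq (vv f) √r x :=
          intervalIntegral.integral_mono_on hr.2.le intervalIntegrable_const
            (hint.mono_set hsub) hmono
      _ ≤ ∫ x in 0..1, msq (vv f) √r x := by
          refine intervalIntegral.integral_mono_interval hr.1.le hr.2.le le_rfl ?_ hint
          exact (ae_restrict_iff' measurableSet_Ioc).2
            (Eventually.of_forall fun x hx => hpos x (Set.Ioc_subset_Icc_self hx))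
      _ = _ := by simp [en]
  have he : msq (vv f) √r r = circleAverage (fun z => ‖deriv f z‖ ^ (-2 : ℝ)) 0 r := by
    rw [msq, Real.mul_self_sqrt hr.1.le]
    refine circleAverage_congr_sphere fun z _ => ?_
    simp [vv, Real.rpow_neg (norm_nonneg _)]
  rw [← he, Real.rpow_neg_one, ← div_eq_mul_inv, le_div_iff₀ (by linarith [hr.2]), mul_comm]
  exact hlow.trans h

/-- `|f'|^t` is integrable for `-2 ≤ t ≤ 0` -/
theorem schwarz_integrable {t : ℝ} (ht : t ∈ Set.Icc (-2 : ℝ) 0) :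
    IntegrableOn (fun z => ‖deriv f z‖ ^ t) (ball 0 1) := by
  obtain ⟨C, hC⟩ := en_bounded hf hne hS
  have hv := vv_diff hf hne
  have hC0 : 0 ≤ C := (en_nonneg hv 0 le_rfl one_pos).trans (hC 0 le_rfl one_pos)
  have hsq : IntegrableOn (fun z => ‖vv f z‖ ^ 2) (ball 0 1) := by
    refine integrableOn_ball_of_bound (hv.continuousOn.norm.pow 2)
      (fun z _ => by positivity) (C := C) fun ρ h0 h1 => ?_
    have hcomp : ∫ u in (0 : ℝ)..1, (msq (vv f) ρ ∘ fun u => u ^ 2) u * (2 * u) =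
        ∫ x in (0 : ℝ) ^ 2..1 ^ 2, msq (vv f) ρ x := by
      refine intervalIntegral.integral_comp_mul_deriv'
        (fun u _ => by simpa using (hasDerivAt_id u).fun_pow 2) (by fun_prop) ?_
      refine (continuousOn_msq hv h0.le h1).mono ?_
      rintro _ ⟨u, hu, rfl⟩
      rw [Set.uIcc_of_le zero_le_one] at hu
      exact ⟨sq_nonneg u, pow_le_one₀ hu.1 hu.2⟩
    have hen : ∫ x in (0 : ℝ) ^ 2..1 ^ 2, msq (vv f) ρ x = en (vv f) 0 ρ := by simp [en]
    have hsc := intervalIntegral.integral_comp_mul_left (a := 0) (b := 1)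
      (fun r => r * circleAverage (fun z => ‖vv f z‖ ^ 2) 0 r) h0.ne'
    simp only [mul_zero, mul_one, smul_eq_mul] at hsc
    have e1 : ∫ u in (0 : ℝ)..1, (msq (vv f) ρ ∘ fun u => u ^ 2) u * (2 * u) =
        ∫ u in (0 : ℝ)..1, 2 / ρ * (ρ * u * circleAverage (fun z => ‖vv f z‖ ^ 2) 0 (ρ * u)) := by
      refine intervalIntegral.integral_congr fun u hu => ?_
      rw [Set.uIcc_of_le zero_le_one] at hu
      show msq (vv f) ρ (u ^ 2) * (2 * u) = _
      rw [msq, Real.sqrt_sq hu.1]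
      have := h0.ne'
      field_simp
    rw [e1, intervalIntegral.integral_const_mul, hsc] at hcomp
    have h2 := (hcomp.trans hen).trans_le (hC ρ h0.le h1)
    set I := ∫ r in (0 : ℝ)..ρ, r * circleAverage (fun z => ‖vv f z‖ ^ 2) 0 r
    rw [← mul_assoc, show 2 / ρ * ρ⁻¹ = 2 / ρ ^ 2 by field_simp, div_mul_eq_mul_div,
      div_le_iff₀ (by positivity)] at h2
    nlinarith [pow_le_one₀ h0.le h1.le (n := 2)]
  have hone : IntegrableOn (fun _ : ℂ => (1 : ℝ)) (ball 0 1) :=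
    integrableOn_const measure_ball_lt_top.ne
  refine (hone.add hsq).mono' ?_ ((ae_restrict_iff' measurableSet_ball).2
    (Eventually.of_forall fun z hz => ?_))
  · refine ContinuousOn.aestronglyMeasurable ?_ measurableSet_ball
    exact (differentiableOn_deriv hf).continuousOn.norm.rpow_const
      fun z hz => .inl (norm_ne_zero_iff.2 (hne z hz))
  · have hp : 0 < ‖deriv f z‖ := norm_pos_iff.2 (hne z hz)
    rw [Real.norm_of_nonneg (rpow_nonneg hp.le _), Pi.add_apply, vv, norm_inv]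
    rcases le_or_gt 1 ‖deriv f z‖ with h | h
    · have := Real.rpow_le_one_of_one_le_of_nonpos h ht.2
      have : 0 ≤ (‖deriv f z‖⁻¹) ^ 2 := sq_nonneg _
      linarith
    · have := Real.rpow_le_rpow_of_exponent_ge hp h.le ht.1
      rw [Real.rpow_neg hp.le, Real.rpow_two, ← inv_pow] at this
      linarith

end

end Vale.Agent.P142
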