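import Mathlib

/-!
Taylor coefficients on the unit disc, Parseval on circles, and weighted energies
`∫₀¹ (1-x)ᵏ M₂[g](ρ√x) dx` (helper file for P142).
-/

namespace Vale.Agent.P142

open Metric Filter Topology Real MeasureTheory ComplexConjugate

noncomputable section

/-- Taylor coefficient at the origin -/
def tc (g : ℂ → ℂ) (n : ℕ) : ℂ := iteratedDeriv n g 0 / (n.factorial : ℂ)

variable {g : ℂ → ℂ}

theorem hasSum_tc (hg : DifferentiableOn ℂ g (ball 0 1)) {z : ℂ} (hz : ‖z‖ < 1) :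
    HasSum (fun n => tc g n * z ^ n) (g z) := by
  have h := Complex.hasSum_taylorSeries_on_ball hg (mem_ball_zero_iff.2 hz)
  refine h.congr_fun fun n => ?_
  simp [tc, div_eq_mul_inv]
  ring

theorem summable_tc (hg : DifferentiableOn ℂ g (ball 0 1)) {r : ℝ} (h0 : 0 ≤ r) (h1 : r < 1) :
    Summable fun n => ‖tc g n‖ * r ^ n := by
  have hs : ((r + 1) / 2 : ℝ) < 1 := by linarith
  have hs0 : 0 < (r + 1) / 2 := by linarith
  set s := (r + 1) / 2
  have hz : ‖(s : ℂ)‖ < 1 := by rwa [Complex.norm_real, Real.norm_of_nonneg hs0.le]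
  have ht := (hasSum_tc hg hz).summable.tendsto_atTop_zero.norm
  obtain ⟨M, hM⟩ := ht.bddAbove_range
  have hgeo : Summable fun n : ℕ => M * (r / s) ^ n :=
    (summable_geometric_of_lt_one (by positivity) ((div_lt_one hs0).2 (by
      show r < (r + 1) / 2
      linarith))).mul_left M
  refine Summable.of_nonneg_of_le (fun n => by positivity) (fun n => ?_) hgeo
  have hn : ‖tc g n‖ * s ^ n ≤ M := by
    have := hM ⟨n, rfl⟩
    simpa [norm_mul, norm_pow, Complex.norm_real, Real.norm_of_nonneg hs0.le] using this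
  rw [div_pow, ← mul_div_assoc, le_div_iff₀ (pow_pos hs0 n)]
  nlinarith [pow_nonneg h0 n]

theorem tc_deriv (g : ℂ → ℂ) (n : ℕ) : tc (deriv g) n = (n + 1) * tc g (n + 1) := by
  rw [tc, tc, ← iteratedDeriv_succ', Nat.factorial_succ, Nat.cast_mul, Nat.cast_add, Nat.cast_one]
  have : ((n : ℂ) + 1) ≠ 0 := Nat.cast_add_one_ne_zero n
  field_simp

theorem hasSum_integral {F : ℕ → ℝ → ℂ} {G : ℝ → ℂ} {B : ℕ → ℝ} (a b : ℝ)
    (hF : ∀ n, Continuous (F n)) (hB : Summable B) (hle : ∀ n θ, ‖F n θ‖ ≤ B n)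
    (hG : ∀ θ, HasSum (fun n => F n θ) (G θ)) :
    HasSum (fun n => ∫ θ in a..b, F n θ) (∫ θ in a..b, G θ) :=
  intervalIntegral.hasSum_integral_of_dominated_convergence (fun n _ => B n)
    (fun n => (hF n).aestronglyMeasurable)
    (fun n => Eventually.of_forall fun θ _ => hle n θ)
    (Eventually.of_forall fun _ _ => hB) intervalIntegrable_const
    (Eventually.of_forall fun θ _ => hG θ)

theorem integral_conj_pow_mul_pow (r : ℝ) (m n : ℕ) :
    ∫ θ in 0..2 * π, conj (circleMap 0 r θ ^ m) * circleMap 0 r θ ^ n =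
      if m = n then ((2 * π * r ^ (2 * n) : ℝ) : ℂ) else 0 := by
  have e : ∀ θ : ℝ, conj (circleMap 0 r θ ^ m) * circleMap 0 r θ ^ n =
      (r : ℂ) ^ (m + n) * Complex.exp ((((n : ℂ) - m) * Complex.I) * θ) := by
    intro θ
    simp only [circleMap, zero_add, mul_pow, map_mul, map_pow, Complex.conj_ofReal,
      ← Complex.exp_conj, Complex.conj_I, ← Complex.exp_nat_mul]
    rw [mul_mul_mul_comm, ← pow_add, ← Complex.exp_add]
    congr 2
    simp [map_natCast]
    ring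
  simp only [e, intervalIntegral.integral_const_mul]
  split_ifs with h
  · subst h
    simp [intervalIntegral.integral_const, Complex.real_smul, ← two_mul]
    ring
  · have hc : ((n : ℂ) - m) * Complex.I ≠ 0 :=
      mul_ne_zero (sub_ne_zero.2 (fun h' => h (Nat.cast_injective h').symm)) Complex.I_ne_zero
    rw [integral_exp_mul_complex hc]
    have h1 : Complex.exp (((n : ℂ) - m) * Complex.I * ((2 * π : ℝ) : ℂ)) = 1 := by
      rw [Complex.exp_eq_one_iff]
      exact ⟨(n : ℤ) - m, by push_cast; ring⟩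
    push_cast at h1 ⊢
    simp [h1]

theorem continuous_comp_circle (hg : DifferentiableOn ℂ g (ball 0 1)) {r : ℝ} (h0 : 0 ≤ r)
    (h1 : r < 1) : Continuous fun θ => g (circleMap 0 r θ) :=
  hg.continuousOn.comp_continuous (continuous_circleMap 0 r) fun θ => by
    simp [abs_of_nonneg h0, h1]

theorem integral_conj_mul_pow (hg : DifferentiableOn ℂ g (ball 0 1)) {r : ℝ} (h0 : 0 ≤ r)
    (h1 : r < 1) (n : ℕ) :
    ∫ θ in 0..2 * π, conj (g (circleMap 0 r θ)) * circleMap 0 r θ ^ n =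
      conj (tc g n) * ((2 * π * r ^ (2 * n) : ℝ) : ℂ) := by
  have hnorm : ∀ θ, ‖circleMap 0 r θ‖ = r := fun θ => by simp [abs_of_nonneg h0]
  have h := hasSum_integral (F := fun m θ =>
      conj (tc g m) * (conj (circleMap 0 r θ ^ m) * circleMap 0 r θ ^ n))
    (G := fun θ => conj (g (circleMap 0 r θ)) * circleMap 0 r θ ^ n)
    (B := fun m => ‖tc g m‖ * r ^ m * r ^ n) 0 (2 * π)
    (fun m => by
      have := continuous_circleMap (0 : ℂ) r
      fun_prop) ((summable_tc hg h0 h1).mul_right _)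
    (fun m θ => le_of_eq (by simp [hnorm, mul_assoc]))
    (fun θ => by
      have h2 := ((Complex.hasSum_conj'.2 (hasSum_tc hg ((hnorm θ).trans_lt h1))).mul_right
        (circleMap 0 r θ ^ n))
      simpa [map_mul, mul_assoc] using h2)
  simp only [intervalIntegral.integral_const_mul, integral_conj_pow_mul_pow, mul_ite,
    mul_zero] at h
  exact (h.unique (hasSum_ite_eq n _ |>.congr_fun fun m => by
    rcases eq_or_ne m n with rfl | hm <;> simp_all))

theorem hasSum_parseval (hg : DifferentiableOn ℂ g (ball 0 1)) {r : ℝ} (h0 : 0 ≤ r) (h1 : r < 1) :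
    HasSum (fun n => ‖tc g n‖ ^ 2 * r ^ (2 * n))
      (circleAverage (fun z => ‖g z‖ ^ 2) 0 r) := by
  have hnorm : ∀ θ, ‖circleMap 0 r θ‖ = r := fun θ => by simp [abs_of_nonneg h0]
  have hc := continuous_comp_circle hg h0 h1
  obtain ⟨S, hS⟩ := isCompact_Icc.exists_bound_of_continuousOn
    (hc.continuousOn (s := Set.Icc 0 (2 * π)))
  have hper : ∀ θ, ‖g (circleMap 0 r θ)‖ ≤ S := fun θ => by
    obtain ⟨t, ht, he⟩ := (periodic_circleMap 0 r).exists_mem_Ico₀ two_pi_pos θ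
    rw [he]
    exact hS t (Set.Ico_subset_Icc_self ht)
  have h := hasSum_integral (F := fun n θ =>
      tc g n * (conj (g (circleMap 0 r θ)) * circleMap 0 r θ ^ n))
    (G := fun θ => ((‖g (circleMap 0 r θ)‖ ^ 2 : ℝ) : ℂ))
    (B := fun n => S * (‖tc g n‖ * r ^ n)) 0 (2 * π)
    (fun n => continuous_const.mul ((Complex.continuous_conj.comp hc).mul
      ((continuous_circleMap 0 r).pow n))) ((summable_tc hg h0 h1).mul_left _)
    (fun n θ => by
      have := mul_le_mul_of_nonneg_left (hper θ)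
        (by positivity : 0 ≤ ‖tc g n‖ * r ^ n)
      simp [hnorm]
      linarith)
    (fun θ => by
      have h2 := (hasSum_tc hg ((hnorm θ).trans_lt h1)).mul_left (conj (g (circleMap 0 r θ)))
      rw [Complex.ofReal_pow, ← Complex.conj_mul']
      exact h2.congr_fun fun n => by ring)
  simp only [intervalIntegral.integral_const_mul, integral_conj_mul_pow hg h0 h1,
    intervalIntegral.integral_ofReal] at h
  have h' : HasSum (fun n => ‖tc g n‖ ^ 2 * (2 * π * r ^ (2 * n)))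
      (∫ θ in 0..2 * π, ‖g (circleMap 0 r θ)‖ ^ 2) :=
    Complex.hasSum_ofReal.1 (h.congr_fun fun n => by
      rw [← mul_assoc (tc g n), Complex.mul_conj']
      push_cast
      ring)
  rw [circleAverage_def, smul_eq_mul]
  exact (h'.mul_left (2 * π)⁻¹).congr_fun fun n => by
    have := Real.pi_pos
    field_simp

/-- the squared mean on the circle of radius `ρ √x` -/
def msq (g : ℂ → ℂ) (ρ x : ℝ) : ℝ := circleAverage (fun z => ‖g z‖ ^ 2) 0 (ρ * √x)

/-- the weighted energy -/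
def en (g : ℂ → ℂ) (k : ℕ) (ρ : ℝ) : ℝ := ∫ x in (0 : ℝ)..1, (1 - x) ^ k * msq g ρ x

/-- the Beta integrals -/
def bet (n k : ℕ) : ℝ := ∫ x in (0 : ℝ)..1, x ^ n * (1 - x) ^ k

theorem bet_nonneg (n k : ℕ) : 0 ≤ bet n k :=
  intervalIntegral.integral_nonneg zero_le_one fun x hx => by
    have := hx.1; have : 0 ≤ 1 - x := by linarith [hx.2]
    positivity

theorem bet_le_one (n k : ℕ) : bet n k ≤ 1 := by
  have : bet n k ≤ ∫ _x in (0 : ℝ)..1, (1 : ℝ) :=
    intervalIntegral.integral_mono_on zero_le_one (by apply Continuous.intervalIntegrable; fun_prop)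
      intervalIntegrable_const fun x hx => mul_le_one₀ (pow_le_one₀ hx.1 hx.2)
        (pow_nonneg (by linarith [hx.2]) _) (pow_le_one₀ (by linarith [hx.2]) (by linarith [hx.1]))
  simpa using this

theorem bet_parts (n k : ℕ) :
    ((n : ℝ) + 1) * bet n (k + 1) = ((k : ℝ) + 1) * bet (n + 1) k := by
  have hd : ∀ x ∈ Set.uIcc (0 : ℝ) 1, HasDerivAt (fun x : ℝ => x ^ (n + 1) * (1 - x) ^ (k + 1))
      (((n : ℝ) + 1) * (x ^ n * (1 - x) ^ (k + 1)) -
        ((k : ℝ) + 1) * (x ^ (n + 1) * (1 - x) ^ k)) x := fun x _ => by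
    have h := ((hasDerivAt_id x).pow (n + 1)).mul (((hasDerivAt_id x).const_sub 1).pow (k + 1))
    simp only [id, Nat.add_sub_cancel] at h
    refine h.congr_deriv ?_
    simp only [Pi.pow_apply, id]
    push_cast
    ring
  have h := intervalIntegral.integral_eq_sub_of_hasDerivAt hd
    (by apply Continuous.intervalIntegrable; fun_prop)
  rw [intervalIntegral.integral_sub (by apply Continuous.intervalIntegrable; fun_prop)
    (by apply Continuous.intervalIntegrable; fun_prop), intervalIntegral.integral_const_mul,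
    intervalIntegral.integral_const_mul] at h
  simp at h
  simp only [bet]
  linarith

theorem bet_split (n k : ℕ) : bet n (k + 1) = bet n k - bet (n + 1) k := by
  rw [bet, bet, bet, ← intervalIntegral.integral_sub
    (by apply Continuous.intervalIntegrable; fun_prop)
    (by apply Continuous.intervalIntegrable; fun_prop)]
  congr 1
  funext x
  ring

/-- the exact relation behind the two comparison inequalities -/
theorem bet_shift (n k : ℕ) : ((n : ℝ) + 1) ^ 2 * bet n (k + 2) * ((n : ℝ) + k + 3) =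
    ((k : ℝ) + 1) * ((k : ℝ) + 2) * bet (n + 1) k * ((n : ℝ) + 1) := by
  have h1 := bet_parts n (k + 1)
  have h2 := bet_parts (n + 1) k
  have h3 := bet_split (n + 1) k
  push_cast at h1 h2
  rw [show k + 1 + 1 = k + 2 from rfl] at h1
  linear_combination ((n : ℝ) + 1) * ((n : ℝ) + k + 3) * h1 +
    ((n : ℝ) + 1) * ((k : ℝ) + 2) * h2 + ((n : ℝ) + 1) * ((k : ℝ) + 2) * ((k : ℝ) + 1) * h3

theorem hasSum_msq (hg : DifferentiableOn ℂ g (ball 0 1)) {ρ x : ℝ} (h0 : 0 ≤ ρ) (h1 : ρ < 1)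
    (hx0 : 0 ≤ x) (hx1 : x ≤ 1) :
    HasSum (fun n => ‖tc g n‖ ^ 2 * ρ ^ (2 * n) * x ^ n) (msq g ρ x) := by
  have hlt : ρ * √x < 1 := lt_of_le_of_lt
    (mul_le_of_le_one_right h0 (Real.sqrt_le_one.2 hx1)) h1
  refine (hasSum_parseval hg (by positivity) hlt).congr_fun fun n => ?_
  rw [mul_pow, pow_mul √x, Real.sq_sqrt hx0]
  ring

theorem hasSum_en (hg : DifferentiableOn ℂ g (ball 0 1)) (k : ℕ) {ρ : ℝ} (h0 : 0 ≤ ρ)
    (h1 : ρ < 1) : HasSum (fun n => ‖tc g n‖ ^ 2 * ρ ^ (2 * n) * bet n k) (en g k ρ) := by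
  have hs : Summable fun n => ‖tc g n‖ ^ 2 * ρ ^ (2 * n) := (hasSum_parseval hg h0 h1).summable
  have h := intervalIntegral.hasSum_integral_of_dominated_convergence
    (F := fun n x => ‖tc g n‖ ^ 2 * ρ ^ (2 * n) * (x ^ n * (1 - x) ^ k))
    (f := fun x => (1 - x) ^ k * msq g ρ x) (μ := volume) (a := 0) (b := 1)
    (fun n _ => ‖tc g n‖ ^ 2 * ρ ^ (2 * n))
    (fun n => (by fun_prop : Continuous _).aestronglyMeasurable)
    (fun n => Eventually.of_forall fun x hx => by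
      rw [Set.uIoc_of_le zero_le_one] at hx
      have h2 : (x ^ n * (1 - x) ^ k) ≤ 1 := mul_le_one₀ (pow_le_one₀ hx.1.le hx.2)
        (pow_nonneg (by linarith [hx.2]) _) (pow_le_one₀ (by linarith [hx.2]) (by linarith [hx.1]))
      have h3 : 0 ≤ 1 - x := by linarith [hx.2]
      have := hx.1
      rw [Real.norm_of_nonneg (by positivity)]
      exact mul_le_of_le_one_right (by positivity) h2)
    (Eventually.of_forall fun _ _ => hs) intervalIntegrable_const
    (Eventually.of_forall fun x hx => by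
      rw [Set.uIoc_of_le zero_le_one] at hx
      exact ((hasSum_msq hg h0 h1 hx.1.le hx.2).mul_left ((1 - x) ^ k)).congr_fun
        fun n => by ring)
  simpa [en, bet, intervalIntegral.integral_const_mul] using h

theorem en_nonneg (hg : DifferentiableOn ℂ g (ball 0 1)) (k : ℕ) {ρ : ℝ} (h0 : 0 ≤ ρ)
    (h1 : ρ < 1) : 0 ≤ en g k ρ :=
  (hasSum_en hg k h0 h1).nonneg fun n => by have := bet_nonneg n k; positivity

theorem differentiableOn_deriv (hg : DifferentiableOn ℂ g (ball 0 1)) :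
    DifferentiableOn ℂ (deriv g) (ball 0 1) := hg.deriv isOpen_ball

theorem hasSum_en_deriv (hg : DifferentiableOn ℂ g (ball 0 1)) (k : ℕ) {ρ : ℝ} (h0 : 0 ≤ ρ)
    (h1 : ρ < 1) :
    HasSum (fun n : ℕ => ((n : ℝ) + 1) ^ 2 * bet n (k + 2) * (‖tc g (n + 1)‖ ^ 2 *
      ρ ^ (2 * (n + 1)))) (ρ ^ 2 * en (deriv g) (k + 2) ρ) := by
  refine ((hasSum_en (differentiableOn_deriv hg) (k + 2) h0 h1).mul_left (ρ ^ 2)).congr_fun
    fun n => ?_
  rw [tc_deriv, norm_mul, show ‖((n : ℂ) + 1)‖ = (n : ℝ) + 1 by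
    rw [← Nat.cast_add_one, Complex.norm_natCast, Nat.cast_add_one]]
  ring

theorem en_deriv_le (hg : DifferentiableOn ℂ g (ball 0 1)) (k : ℕ) {ρ : ℝ} (h0 : 0 ≤ ρ)
    (h1 : ρ < 1) :
    ρ ^ 2 * en (deriv g) (k + 2) ρ ≤ ((k : ℝ) + 1) * ((k : ℝ) + 2) * en g k ρ := by
  have hA := (hasSum_en hg k h0 h1).mul_left (((k : ℝ) + 1) * ((k : ℝ) + 2))
  have hA' := (hasSum_nat_add_iff' 1).2 hA
  refine (hasSum_le (fun n => ?_) (hasSum_en_deriv hg k h0 h1) hA').trans ?_
  · have hb := bet_shift n k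
    have hnn := bet_nonneg (n + 1) k
    have hw : ((n : ℝ) + 1) ^ 2 * bet n (k + 2) ≤
        ((k : ℝ) + 1) * ((k : ℝ) + 2) * bet (n + 1) k := by
      refine le_of_mul_le_mul_right ?_ (by positivity : (0 : ℝ) < (n : ℝ) + k + 3)
      rw [hb]
      exact mul_le_mul_of_nonneg_left (by linarith) (by positivity)
    calc ((n : ℝ) + 1) ^ 2 * bet n (k + 2) * (‖tc g (n + 1)‖ ^ 2 * ρ ^ (2 * (n + 1)))
        ≤ ((k : ℝ) + 1) * ((k : ℝ) + 2) * bet (n + 1) k *
          (‖tc g (n + 1)‖ ^ 2 * ρ ^ (2 * (n + 1))) := mul_le_mul_of_nonneg_right hw (by positivity)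
      _ = _ := by ring
  · have := bet_nonneg 0 k
    simp only [Finset.sum_range_one]
    have : 0 ≤ ((k : ℝ) + 1) * ((k : ℝ) + 2) * (‖tc g 0‖ ^ 2 * ρ ^ (2 * 0) * bet 0 k) := by
      positivity
    linarith

theorem en_le_deriv (hg : DifferentiableOn ℂ g (ball 0 1)) (k : ℕ) {e : ℝ} (he : 0 < e)
    (he1 : e ≤ 1) : ∃ C, ∀ ρ, 0 ≤ ρ → ρ < 1 →
      ((k : ℝ) + 1) * ((k : ℝ) + 2) * (1 - e) * en g k ρ ≤
        ρ ^ 2 * en (deriv g) (k + 2) ρ + C := by
  obtain ⟨K, hK⟩ := exists_nat_ge (((k : ℝ) + 3) / e)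
  set κ : ℝ := ((k : ℝ) + 1) * ((k : ℝ) + 2) with hκ
  refine ⟨κ * ‖tc g 0‖ ^ 2 + ∑ m ∈ Finset.range K, κ * ‖tc g (m + 1)‖ ^ 2,
    fun ρ h0 h1 => ?_⟩
  have hA := (hasSum_en hg k h0 h1).mul_left (κ * (1 - e))
  have hA' := (hasSum_nat_add_iff' 1).2 hA
  have hB := (hasSum_en_deriv hg k h0 h1).add (hasSum_sum_of_ne_finset_zero
    (f := fun m => if m < K then κ * ‖tc g (m + 1)‖ ^ 2 else 0) (s := Finset.range K)
    fun m hm => if_neg (by simpa using hm))
  have hle := hasSum_le (fun n => ?_) hA' hB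
  · have hs : ∑ m ∈ Finset.range K, (if m < K then κ * ‖tc g (m + 1)‖ ^ 2 else 0) =
        ∑ m ∈ Finset.range K, κ * ‖tc g (m + 1)‖ ^ 2 :=
      Finset.sum_congr rfl fun m hm => if_pos (Finset.mem_range.1 hm)
    rw [hs, Finset.sum_range_one] at hle
    have h00 : κ * (1 - e) * (‖tc g 0‖ ^ 2 * ρ ^ (2 * 0) * bet 0 k) ≤ κ * ‖tc g 0‖ ^ 2 := by
      have hb1 : (1 - e) * bet 0 k ≤ 1 :=
        mul_le_one₀ (by linarith) (bet_nonneg 0 k) (bet_le_one 0 k)
      have := mul_le_mul_of_nonneg_left hb1 (by positivity : 0 ≤ κ * ‖tc g 0‖ ^ 2)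
      simp only [mul_zero, pow_zero, mul_one] at this ⊢
      nlinarith
    linarith
  · have hb := bet_shift n k
    have hnn := bet_nonneg (n + 1) k
    have hp : (0 : ℝ) ≤ ‖tc g (n + 1)‖ ^ 2 * ρ ^ (2 * (n + 1)) := by positivity
    have hd : (0 : ℝ) ≤ ((n : ℝ) + 1) ^ 2 * bet n (k + 2) := by
      have := bet_nonneg n (k + 2); positivity
    show κ * (1 - e) * (‖tc g (n + 1)‖ ^ 2 * ρ ^ (2 * (n + 1)) * bet (n + 1) k) ≤ _
    split_ifs with hn
    · have h2 : ρ ^ (2 * (n + 1)) ≤ 1 := pow_le_one₀ h0 h1.le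
      have h3 : (1 - e) * (ρ ^ (2 * (n + 1)) * bet (n + 1) k) ≤ 1 :=
        mul_le_one₀ (by linarith) (by positivity) (mul_le_one₀ h2 hnn (bet_le_one _ k))
      have := mul_le_mul_of_nonneg_left h3 (by positivity : 0 ≤ κ * ‖tc g (n + 1)‖ ^ 2)
      nlinarith [mul_nonneg hd hp]
    · have hn' : ((k : ℝ) + 3) / e ≤ n := hK.trans (by exact_mod_cast not_lt.1 hn)
      rw [div_le_iff₀ he] at hn'
      have hw : κ * (1 - e) * bet (n + 1) k ≤ ((n : ℝ) + 1) ^ 2 * bet n (k + 2) := by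
        refine le_of_mul_le_mul_right ?_ (by positivity : (0 : ℝ) < (n : ℝ) + k + 3)
        rw [hb]
        calc κ * (1 - e) * bet (n + 1) k * ((n : ℝ) + k + 3)
            = κ * bet (n + 1) k * ((1 - e) * ((n : ℝ) + k + 3)) := by ring
          _ ≤ κ * bet (n + 1) k * ((n : ℝ) + 1) :=
              mul_le_mul_of_nonneg_left (by nlinarith) (by positivity)
      nlinarith [mul_le_mul_of_nonneg_right hw hp]

theorem continuousOn_msq (hg : DifferentiableOn ℂ g (ball 0 1)) {ρ : ℝ} (h0 : 0 ≤ ρ)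
    (h1 : ρ < 1) : ContinuousOn (msq g ρ) (Set.Icc 0 1) := by
  have h := ContinuousOn.circleAverage (f := fun z => ‖g z‖ ^ 2) (c := 0) (s := Set.Icc 0 ρ)
    ((hg.continuousOn.norm.pow 2).mono fun z hz => by
      simp only [Set.mem_ofPred_eq, sub_zero, Set.mem_Icc] at hz
      simpa using lt_of_le_of_lt hz.2 h1) fun r hr => hr.1
  refine h.comp ((continuous_const.mul Real.continuous_sqrt).continuousOn) fun x hx => ?_
  exact ⟨by positivity, mul_le_of_le_one_right h0 (Real.sqrt_le_one.2 hx.2)⟩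

theorem en_le_of_bound {G : ℂ → ℂ} (hg : DifferentiableOn ℂ g (ball 0 1))
    (hG : DifferentiableOn ℂ G (ball 0 1)) (b : ℝ)
    (h : ∀ z, ‖z‖ < 1 → (1 - ‖z‖ ^ 2) ^ 2 * ‖G z‖ ≤ b * ‖g z‖) (k : ℕ) {ρ : ℝ} (h0 : 0 ≤ ρ)
    (h1 : ρ < 1) : en G (k + 4) ρ ≤ b ^ 2 * en g k ρ := by
  rw [en, en, ← intervalIntegral.integral_const_mul]
  refine intervalIntegral.integral_mono_on zero_le_one
    (((by fun_prop : Continuous fun x : ℝ => (1 - x) ^ (k + 4)).continuousOn.mul
      (continuousOn_msq hG h0 h1)).intervalIntegrable_of_Icc zero_le_one)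
    ((((by fun_prop : Continuous fun x : ℝ => (1 - x) ^ k).continuousOn.mul
      (continuousOn_msq hg h0 h1)).const_mul (b ^ 2) |>.intervalIntegrable_of_Icc zero_le_one))
    fun x hx => ?_
  have hs0 : 0 ≤ 1 - x := by linarith [hx.2]
  have hr0 : 0 ≤ ρ * √x := by positivity
  have hr1 : ρ * √x < 1 := lt_of_le_of_lt
    (mul_le_of_le_one_right h0 (Real.sqrt_le_one.2 hx.2)) h1
  have hint : ∀ F : ℂ → ℂ, DifferentiableOn ℂ F (ball 0 1) → ∀ c : ℝ,
      CircleIntegrable (fun z => c * ‖F z‖ ^ 2) 0 (ρ * √x) := fun F hF c => by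
    exact (((hF.continuousOn.norm.pow 2).const_mul c).mono
      (sphere_subset_ball hr1)).circleIntegrable hr0
  have key : (1 - x) ^ 4 * msq G ρ x ≤ b ^ 2 * msq g ρ x := by
    unfold msq
    rw [← smul_eq_mul ((1 - x) ^ 4), ← circleAverage_fun_smul, ← smul_eq_mul (b ^ 2),
      ← circleAverage_fun_smul]
    refine circleAverage_mono (hint G hG _) (hint g hg _) fun z hz => ?_
    rw [mem_sphere_zero_iff_norm, abs_of_nonneg hr0] at hz
    have hz1 : (1 - x) ^ 2 ≤ (1 - ‖z‖ ^ 2) ^ 2 := by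
      refine pow_le_pow_left₀ hs0 ?_ 2
      rw [hz, mul_pow, Real.sq_sqrt hx.1]
      nlinarith [mul_le_of_le_one_left hx.1 (pow_le_one₀ h0 h1.le : ρ ^ 2 ≤ 1)]
    have h2 : (1 - x) ^ 2 * ‖G z‖ ≤ b * ‖g z‖ :=
      (mul_le_mul_of_nonneg_right hz1 (norm_nonneg _)).trans (h z (hz ▸ hr1))
    have h3 := pow_le_pow_left₀ (by positivity) h2 2
    simp only [smul_eq_mul]
    nlinarith [h3]
  calc (1 - x) ^ (k + 4) * msq G ρ x = (1 - x) ^ k * ((1 - x) ^ 4 * msq G ρ x) := by ring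
    _ ≤ (1 - x) ^ k * (b ^ 2 * msq g ρ x) := mul_le_mul_of_nonneg_left key (by positivity)
    _ = b ^ 2 * ((1 - x) ^ k * msq g ρ x) := by ring

end

end Vale.Agent.P142
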